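import Vale.Agent.P366XR.Cov

/-!
# P366NW: the contracted identity of Bianchi
-/

set_option linter.all false

open Filter Topology Matrix
open scoped ContDiff
open Vale.Agent.P366.Stmt Vale.Agent.P366Z
open Vale.Agent.P366Y.C (rc Sy)
open Vale.Agent.P366P (Mx DA Dm Gam Fm Dm_mul Dm_add Dm_tr rc_eq scal_eq_tr)

noncomputable section

namespace Vale.Agent.P366NW

variable {n : ℕ} {g : Field n} {A C : E n → Mx n} {x : E n}

/-- smooth matrix fields -/
def SA (A : E n → Mx n) : Prop := ∀ i j, Smooth fun y => A y i j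

theorem SA.da (h : SA A) (x : E n) : DA A x := fun i j => (h i j).diff x
theorem SA.mul (hA : SA A) (hC : SA C) : SA fun y => A y * C y := fun i j =>
  ContDiff.sum (s := Finset.univ) fun l _ => ContDiff.mul (hA i l) (hC l j)
theorem SA.add (hA : SA A) (hC : SA C) : SA fun y => A y + C y := fun i j =>
  ContDiff.add (hA i j) (hC i j)
theorem SA.sub (hA : SA A) (hC : SA C) : SA fun y => A y - C y := fun i j =>
  ContDiff.sub (hA i j) (hC i j)
theorem SA.neg (hA : SA A) : SA fun y => -A y := fun i j => ContDiff.neg (hA i j)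
theorem SA.tr (hA : SA A) : SA fun y => (A y)ᵀ := fun i j => hA j i
theorem SA.dm (hA : SA A) (k : Fin n) : SA (Dm k A) := fun i j => (hA i j).pd k

theorem Dm_sub (hA : DA A x) (hC : DA C x) (k : Fin n) :
    Dm k (fun y => A y - C y) x = Dm k A x - Dm k C x := by
  ext i j
  exact pd_sub (hA i j) (hC i j) k

theorem Dm_neg (k : Fin n) : Dm k (fun y => -A y) x = -Dm k A x := by
  ext i j
  exact pd_neg (f := fun y => A y i j) k

theorem Dm_comm (hA : SA A) (j k : Fin n) (x : E n) : Dm j (Dm k A) x = Dm k (Dm j A) x := by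
  ext a b
  exact pd_comm ((hA a b).c2 x) j k

theorem sa_G (hg : Met g) (k : Fin n) : SA (Gam g k) := fun a b => hg.sm_chr a k b

theorem sa_F (hg : Met g) (j k : Fin n) : SA (Fm g j k) :=
  ((((sa_G hg k).dm j).sub ((sa_G hg j).dm k)).add ((sa_G hg j).mul (sa_G hg k))).sub
    ((sa_G hg k).mul (sa_G hg j))

theorem dF (hg : Met g) (i j k : Fin n) (x : E n) : Dm i (Fm g j k) x =
    Dm i (Dm j (Gam g k)) x - Dm i (Dm k (Gam g j)) x +
      (Dm i (Gam g j) x * Gam g k x + Gam g j x * Dm i (Gam g k) x) -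
      (Dm i (Gam g k) x * Gam g j x + Gam g k x * Dm i (Gam g j) x) := by
  have a := sa_G hg j
  have b := sa_G hg k
  rw [← Dm_mul (a.da x) (b.da x), ← Dm_mul (b.da x) (a.da x),
    ← Dm_sub ((b.dm j).da x) ((a.dm k).da x),
    ← Dm_add (((b.dm j).sub (a.dm k)).da x) ((a.mul b).da x),
    ← Dm_sub ((((b.dm j).sub (a.dm k)).add (a.mul b)).da x) ((b.mul a).da x)]
  rfl

/-- the derivative of the curvature -/
def Nn (g : Field n) (i j k : Fin n) (x : E n) : Mx n :=
  Dm i (Fm g j k) x + Gam g i x * Fm g j k x - Fm g j k x * Gam g i x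

/-- **the second identity of Bianchi** -/
theorem bi2 (hg : Met g) (i j k : Fin n) (x : E n) :
    Nn g i j k x + Nn g j k i x + Nn g k i j x = 0 := by
  simp only [Nn, dF hg]
  rw [Dm_comm (sa_G hg k) j i, Dm_comm (sa_G hg i) k j, Dm_comm (sa_G hg j) k i]
  simp only [Fm, Matrix.mul_add, Matrix.mul_sub, Matrix.add_mul, Matrix.sub_mul, Matrix.mul_assoc]
  abel

/-- the inverse metric -/
def Hm (g : Field n) : E n → Mx n := fun y => (mat g y)⁻¹

theorem sa_H (hg : Met g) : SA (Hm g) := fun i j => hg.sm_up i j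

theorem dH (hg : Met g) (k : Fin n) :
    Dm k (Hm g) = fun x => -(Gam g k x * Hm g x) - Hm g x * (Gam g k x)ᵀ :=
  funext (P366XR.pM_inv hg k)

/-- the curvature with two upper indices -/
def Mm (g : Field n) (j k : Fin n) : E n → Mx n := fun y => Fm g j k y * Hm g y

theorem Mm_anti (g : Field n) (j k : Fin n) (x : E n) : Mm g j k x = -Mm g k j x := by
  simp only [Mm, Fm, Matrix.add_mul, Matrix.sub_mul]
  abel

theorem Mm_skew (hg : Met g) (j k : Fin n) (x : E n) : Mm g j k x = -(Mm g j k x)ᵀ := by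
  have e : ∀ j k, Dm j (Dm k (Hm g)) x =
      -(Dm j (Gam g k) x * Hm g x + Gam g k x * Dm j (Hm g) x) -
        (Dm j (Hm g) x * (Gam g k x)ᵀ + Hm g x * (Dm j (Gam g k) x)ᵀ) := by
    intro j k
    have b := sa_G hg k
    have h := sa_H hg
    rw [dH hg k, Dm_sub ((b.mul h).neg.da x) ((h.mul b.tr).da x), Dm_neg,
      Dm_mul (b.da x) (h.da x), Dm_mul (h.da x) (b.tr.da x), Dm_tr]
  have h := Dm_comm (sa_H hg) j k x
  rw [e, e] at h
  have s : (Hm g x)ᵀ = Hm g x := P366XR.inv_sy hg x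
  simp only [dH hg, Matrix.mul_add, Matrix.mul_sub, Matrix.add_mul, Matrix.sub_mul,
    Matrix.mul_assoc, Matrix.mul_neg, Matrix.neg_mul] at h
  simp only [Mm, Fm, transpose_mul, transpose_sub, transpose_add, s, Matrix.mul_add,
    Matrix.mul_sub, Matrix.add_mul, Matrix.sub_mul, Matrix.mul_assoc]
  rw [← sub_eq_zero] at h ⊢
  rw [← neg_eq_zero, ← h]
  abel

theorem sa_M (hg : Met g) (j k : Fin n) : SA (Mm g j k) := (sa_F hg j k).mul (sa_H hg)

theorem dM (hg : Met g) (i j k : Fin n) (x : E n) :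
    Dm i (Mm g j k) x + Gam g i x * Mm g j k x + Mm g j k x * (Gam g i x)ᵀ =
      Nn g i j k x * Hm g x := by
  rw [show Dm i (Mm g j k) x = _ from Dm_mul ((sa_F hg j k).da x) ((sa_H hg).da x) i, dH hg]
  simp only [Nn, Mm, Matrix.mul_add, Matrix.mul_sub, Matrix.add_mul, Matrix.sub_mul,
    Matrix.mul_assoc, Matrix.mul_neg]
  abel

theorem anti0 {ι : Type} [Fintype ι] {B : ι → ι → ℝ} (h : ∀ i c, B i c = -B c i) :
    ∑ i, ∑ c, B i c = 0 := by
  have : ∑ i, ∑ c, B i c = -∑ i, ∑ c, B i c := by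
    conv_lhs => rw [Finset.sum_comm]
    simp only [← Finset.sum_neg_distrib, ← h]
  linarith

theorem bi_alg {ι : Type} [Fintype ι] {G : ι → ι → ι → ℝ} (hG : ∀ a i c, G a i c = G a c i)
    {M : ι → ι → ι → ι → ℝ} {D : ι → ι → ι → ι → ι → ℝ}
    (h1 : ∀ j k a b, M j k a b = -M k j a b) (h2 : ∀ j k a b, M j k a b = -M j k b a)
    (d1 : ∀ i j k a b, D i j k a b = -D i k j a b) (d2 : ∀ i j k a b, D i j k a b = -D i j k b a)
    (k : ι) (hB : ∀ i j,
      (D i j k j i + ∑ c, G j i c * M j k c i + ∑ c, M j k j c * G i i c) +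
      (D j k i j i + ∑ c, G j j c * M k i c i + ∑ c, M k i j c * G i j c) +
      (D k i j j i + ∑ c, G j k c * M i j c i + ∑ c, M i j j c * G i k c) = 0) :
    2 * (∑ i, (∑ a, D i a k a i + ∑ c, G i i c * ∑ a, M a k a c) -
      ∑ j, ∑ c, G j k c * ∑ a, M a j a c) = ∑ i, ∑ a, D k a i a i := by
  have h := Finset.sum_eq_zero (s := Finset.univ) fun i _ =>
    Finset.sum_eq_zero (s := Finset.univ) fun j _ => hB i j
  simp only [Finset.sum_add_distrib] at h
  have a1 : ∑ i, ∑ j, ∑ c, G j i c * M j k c i = 0 := by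
    rw [Finset.sum_comm]
    exact Finset.sum_eq_zero fun j _ => anti0 fun i c => by rw [hG j c i, h2 j k c i]; ring
  have a2 : ∑ i, ∑ j, ∑ c, M k i j c * G i j c = 0 :=
    Finset.sum_eq_zero fun i _ => anti0 fun j c => by rw [hG i c j, h2 k i j c]; ring
  have a3 : ∑ i, ∑ j, ∑ c, M j k j c * G i i c = ∑ i, ∑ c, ∑ a, G i i c * M a k a c :=
    Finset.sum_congr rfl fun i _ => by rw [Finset.sum_comm]; simp only [mul_comm]
  have a4 : ∑ i, ∑ j, D j k i j i = ∑ i, ∑ a, D i a k a i := by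
    rw [Finset.sum_comm]
    exact Finset.sum_congr rfl fun j _ => Finset.sum_congr rfl fun i _ => by
      rw [d1 j k i, d2 j i k j, neg_neg]
  have a5 : ∑ i, ∑ j, ∑ c, G j j c * M k i c i = ∑ i, ∑ c, ∑ a, G i i c * M a k a c := by
    rw [P366P.rot3]
    exact Finset.sum_congr rfl fun j _ => Finset.sum_congr rfl fun c _ =>
      Finset.sum_congr rfl fun i _ => by rw [h1 k i, h2 i k c, neg_neg]
  have a6 : ∑ i, ∑ j, D k i j j i = -∑ i, ∑ a, D k a i a i := by
    rw [Finset.sum_comm]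
    simp only [← Finset.sum_neg_distrib, ← d2]
  have a7 : ∑ i, ∑ j, ∑ c, G j k c * M i j c i = -∑ j, ∑ c, ∑ a, G j k c * M a j a c := by
    rw [P366P.rot3]
    simp only [← Finset.sum_neg_distrib, ← mul_neg, ← h2]
  have a8 : ∑ i, ∑ j, ∑ c, M i j j c * G i k c = -∑ j, ∑ c, ∑ a, G j k c * M a j a c := by
    rw [P366P.swp3]
    simp only [← Finset.sum_neg_distrib, ← mul_neg, ← h1, mul_comm]
  simp only [Finset.sum_add_distrib, Finset.mul_sum _ _ (G _ _ _)]
  linarith

theorem sm_rc (hg : Met g) : P366XR.Sm (rc g) := fun i l => by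
  rw [funext fun y => rc_eq hg y i l]
  exact ContDiff.sum fun j _ => sa_F hg j i j l

theorem sy_rc (hg : Met g) : Sy (rc g) :=
  ⟨sm_rc hg, fun x i j => congrFun (congrFun (P366XR.rc_sy hg x) j) i⟩

theorem Mm_con (hg : Met g) (k i : Fin n) (y : E n) :
    ∑ a, Mm g a k y a i = ∑ b, up g i b y * rc g y b k := by
  simp only [Mm, mul_apply]
  rw [Finset.sum_comm]
  refine Finset.sum_congr rfl fun b _ => ?_
  rw [← Finset.sum_mul, ← rc_eq hg, (sy_rc hg).sy y k b, mul_comm, hg.up_sy i b]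
  rfl

/-- the divergence of a tensor in mixed components -/
theorem dvT_mix (hg : Met g) {T : Field n} (hT : P366XR.Sm T) (k : Fin n) (x : E n) :
    dvT g T k x = ∑ i, (pd i (fun y => ∑ b, up g i b y * T y b k) x +
      ∑ c, chr g i i c x * ∑ b, up g c b x * T x b k) -
      ∑ j, ∑ c, chr g j k c x * ∑ b, up g c b x * T x b j := by
  have hY : P366XR.Df (fun i (_ : E n) => if i = k then (1 : ℝ) else 0) x := fun i =>
    differentiableAt_const _
  have h := P366XR.dv_sh hg hT hY
  have e : P366XR.hi g (P366XR.lo T fun i (_ : E n) => if i = k then (1 : ℝ) else 0) =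
      fun i y => ∑ b, up g i b y * T y b k := by
    funext i y
    simp [P366XR.hi, P366XR.lo, P366XR.ev, mulVec, dotProduct, up, mat]
  rw [hg.dv_chr (P366XR.df_hi hg (P366XR.df_lo hT hY)), e] at h
  rw [h, eq_sub_iff_add_eq]
  congr 1
  · simp [P366XR.ev, dotProduct]
  · simp only [trace, diag, mul_apply, P366XR.Dm, P366P.cd, of_apply, pd_const, zero_add, mul_ite,
      mul_one, mul_zero, Finset.sum_ite_eq', Finset.mem_univ, if_true, Finset.mul_sum]
    rw [P366P.rot3]
    exact Finset.sum_congr rfl fun c _ => Finset.sum_congr rfl fun b _ =>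
      Finset.sum_congr rfl fun j _ => by rw [hg.chr_sy j k c]; simp only [up, mat]; ring

/-- **the contracted identity of Bianchi** -/
theorem bianchi (hg : Met g) (k : Fin n) (x : E n) : dvT g (rc g) k x = pd k (scal g) x / 2 := by
  have h := bi_alg (G := fun a i c => chr g a i c x) (fun a i c => hg.chr_sy a i c x)
    (M := fun j k a b => Mm g j k x a b) (D := fun i j k a b => Dm i (Mm g j k) x a b)
    (fun j k a b => congrFun (congrFun (Mm_anti g j k x) a) b)
    (fun j k a b => congrFun (congrFun (Mm_skew hg j k x) a) b)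
    (fun i j k a b => by rw [funext (Mm_anti g j k), Dm_neg]; rfl)
    (fun i j k a b => by
      conv_lhs => rw [funext (Mm_skew hg j k), Dm_neg, Dm_tr]
      rfl) k (fun i j => by
      have := congrArg (· * Hm g x) (bi2 hg i j k x)
      simp only [Matrix.add_mul, ← dM hg, Matrix.zero_mul] at this
      exact congrFun (congrFun this j) i)
  have e : ∀ m k i, ∑ a, Dm m (Mm g a k) x a i = pd m (fun y => ∑ b, up g i b y * rc g y b k) x :=
    fun m k i => by
      rw [← funext (Mm_con hg k i), pd_sum _ fun a _ => (sa_M hg a k a i).diff x]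
      rfl
  simp only [e, Mm_con hg] at h
  rw [← dvT_mix hg (sm_rc hg), ← pd_sum _ fun i _ => DifferentiableAt.fun_sum fun b _ =>
    ((hg.sm_up i b).diff x).fun_mul ((sm_rc hg b i).diff x)] at h
  rw [funext (scal_eq_tr hg), eq_div_iff two_ne_zero, mul_comm, h]
  refine congrArg (pd k · x) (funext fun y => ?_)
  simp only [tr, (sy_rc hg).sy y _ _]

end Vale.Agent.P366NW
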