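import Vale.Agent.P366RB.Defs
import Vale.Agent.P366Z.Newt

/-!
# P366NW: the expansion at infinity with a fractional rate
-/

open Metric Filter Topology Set
open scoped ContDiff
open Vale.Agent.P366.Stmt Vale.Agent.P366Z Vale.Agent.P366Z.Nw

noncomputable section

namespace Vale.Agent.P366NW

variable {n : ℕ} {w : E n → ℝ} {x x' e : E n} {R M S r d : ℝ}

theorem lap_dip' (hx : x ≠ 0) (e : E n) (p : ℝ) :
    lap (eu n) (fun y => ht e y * ‖y‖ ^ p) x = p * (p + n) * ht e x * ‖x‖ ^ (p - 2) := by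
  rw [met_eu.lap_mul (sm_ht e).contDiffAt (contDiffAt_norm_rpow hx _), lap_ht, ip_ht hx,
    lap_eu_rpow hx]
  ring

theorem lap_quad' (hx : x ≠ 0) (he : ‖e‖ = 1) (p : ℝ) :
    lap (eu n) (fun y => ht e y * ht e y * ‖y‖ ^ p) x =
      2 * ‖x‖ ^ p + p * (p + n + 2) * ht e x ^ 2 * ‖x‖ ^ (p - 2) := by
  have h : ip (eu n) (fun y => ht e y * ht e y) (fun y => ‖y‖ ^ p) x =
      2 * ht e x * ip (eu n) (ht e) (fun y => ‖y‖ ^ p) x := by
    rw [ip_eu, ip_eu, Finset.mul_sum]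
    refine Finset.sum_congr rfl fun i _ => ?_
    rw [pd_mul (diff2 (sm_ht e).contDiffAt) (diff2 (sm_ht e).contDiffAt)]
    ring
  rw [met_eu.lap_mul ((sm_ht e).mul (sm_ht e)).contDiffAt (contDiffAt_norm_rpow hx _),
    lap_ht2 he, h, ip_ht hx, lap_eu_rpow hx]
  ring

theorem pws (hr : 0 < r) (p : ℝ) : r ^ (p + 1) = r ^ p * r ∧ r ^ (p + 2) = r ^ p * r ^ 2 ∧
    r ^ (p + 1 - 2) = r ^ p / r ∧ r ^ (p - 2) = r ^ p / r ^ 2 :=
  ⟨Real.rpow_add_one hr.ne' p, by rw [Real.rpow_add hr, Real.rpow_two], by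
    rw [show p + 1 - 2 = p - 1 by ring, Real.rpow_sub_one hr.ne'], by
    rw [Real.rpow_sub hr, Real.rpow_two]⟩

/-- the hypotheses -/
structure H (w : E n → ℝ) (d R M S : ℝ) : Prop where
  dim : 3 ≤ n
  d0 : 0 < d
  d1 : d < 1
  one : 1 ≤ R
  M0 : 0 ≤ M
  S0 : 0 ≤ S
  sm : Smooth w
  bd : ∀ x, R ≤ ‖x‖ → |w x| ≤ M ∧ |lap (eu n) w x| < S * ‖x‖ ^ (-(n + d) : ℝ)
  lim : Tendsto w (cocompact (E n)) (𝓝 0)

theorem H.neg (h : H w d R M S) : H (fun x => -w x) d R M S :=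
  ⟨h.dim, h.d0, h.d1, h.one, h.M0, h.S0, ContDiff.neg h.sm, fun x hx => by
    rw [lap_neg, abs_neg, abs_neg]
    exact h.bd x hx, by simpa using h.lim.neg⟩

theorem H.ne (h : H w d R M S) (hx : R ≤ ‖x‖) : x ≠ 0 := norm_pos_iff.1 (by linarith [h.one])

/-- the barrier in a half space -/
theorem bar (hn : 3 ≤ n) (d0 : 0 < d) (d1 : d < 1) : ∃ G, 0 ≤ G ∧ ∀ e : E n, ‖e‖ = 1 →
    ∃ φ : E n → ℝ, ∀ y, y ≠ 0 → ContDiffAt ℝ 2 φ y ∧ (0 ≤ ht e y →
      lap (eu n) φ y ≤ -(2 * ‖y‖ ^ (-(n + d) : ℝ)) ∧ ‖y‖ ^ (-(n + d) + 2 : ℝ) ≤ φ y ∧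
        φ y ≤ G * ‖y‖ ^ (-(n + d) + 2 : ℝ)) := by
  have n3 : (3 : ℝ) ≤ n := by exact_mod_cast hn
  obtain ⟨β, β0, hβ⟩ : ∃ β, 0 ≤ β ∧ d * (n - 2 + d) + 2 ≤ 2 * β :=
    ⟨d * (n - 2 + d) / 2 + 1, by nlinarith, by linarith⟩
  have c0 : 0 < (n - 1 + d) * (1 - d) := mul_pos (by linarith) (by linarith)
  obtain ⟨α, hα⟩ : ∃ α, α * ((n - 1 + d) * (1 - d)) = β * ((n + d) * (2 - d)) :=
    ⟨_, div_mul_cancel₀ _ c0.ne'⟩
  have αβ : β ≤ α := le_of_mul_le_mul_right (by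
    rw [hα]; exact mul_le_mul_of_nonneg_left (by nlinarith) β0) c0
  refine ⟨1 + α, by linarith, fun e he => ⟨fun y => 1 * (1 * ‖y‖ ^ (-(n + d) + 2 : ℝ) +
    α * (ht e y * ‖y‖ ^ (-(n + d) + 1 : ℝ))) + -β * (ht e y * ht e y * ‖y‖ ^ (-(n + d) : ℝ)),
    fun y hy => ?_⟩⟩
  have s0 := contDiffAt_norm_rpow (m := 2) hy
  have s1 := (sm_ht e).contDiffAt.mul (s0 (-(n + d) + 1))
  have s2 := ((sm_ht e).mul (sm_ht e)).contDiffAt.mul (s0 (-(n + d)))
  have s3 := ((contDiffAt_const (c := (1 : ℝ))).mul (s0 (-(n + d) + 2))).add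
    ((contDiffAt_const (c := α)).mul s1)
  refine ⟨(contDiffAt_const.mul s3).add (contDiffAt_const.mul s2), fun h0 => ?_⟩
  have r0 := norm_pos_iff.2 hy
  obtain ⟨p1, p2, p3, p4⟩ := pws r0 (-(n + d))
  have P0 := Real.rpow_pos_of_pos r0 (-(n + d))
  rw [met_eu.lap_lin s3 s2, met_eu.lap_lin (s0 _) s1, lap_dip' hy, lap_quad' hy he, lap_eu_rpow hy,
    add_sub_cancel_right]
  simp only [p1, p2, p3, p4]
  obtain ⟨t, ht⟩ : ∃ t, ht e y = t * ‖y‖ := ⟨_, (div_mul_cancel₀ _ r0.ne').symm⟩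
  have t1 : t ≤ 1 := le_of_mul_le_mul_right (by rw [← ht, one_mul]; exact ht_le he y) r0
  have t0 : 0 ≤ t := nonneg_of_mul_nonneg_left (ht ▸ h0) r0
  rw [ht]
  generalize ‖y‖ ^ (-(n + d) : ℝ) = P at P0 ⊢
  have tt : t * t ≤ t := mul_le_of_le_one_right t0 t1
  have q0 := mul_pos P0 (pow_pos r0 2)
  have q1 : 0 ≤ β * ((n + d) * (2 - d)) := mul_nonneg β0 (mul_nonneg (by linarith) (by linarith))
  refine ⟨?_, ?_, ?_⟩
  · rw [mul_assoc _ (t * ‖y‖), show t * ‖y‖ * (P / ‖y‖) = t * P by field_simp,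
      mul_assoc _ ((t * ‖y‖) ^ 2), show (t * ‖y‖) ^ 2 * (P / ‖y‖ ^ 2) = t * t * P by field_simp]
    linarith [mul_le_mul_of_nonneg_right hβ P0.le, congrArg (· * (t * P)) hα,
      mul_le_mul_of_nonneg_right (mul_le_mul_of_nonneg_left tt q1) P0.le]
  · linarith [mul_le_mul_of_nonneg_right (mul_le_mul αβ tt (mul_self_nonneg t) (β0.trans αβ)) q0.le]
  · linarith [mul_le_mul_of_nonneg_right (mul_le_mul_of_nonneg_left t1 (β0.trans αβ)) q0.le,
      mul_nonneg (mul_nonneg β0 (mul_self_nonneg t)) q0.le]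

/-- comparison with the reflection -/
theorem H.ang (h : H w d R M S) : ∃ G, 0 ≤ G ∧ ∀ (e x : E n) (L : E n ≃ₗᵢ[ℝ] E n), ‖e‖ = 1 →
    (∀ y, ht e y = 0 → L y = y) → R ≤ ‖x‖ → 0 ≤ ht e x →
    w x - w (L x) ≤ G * ‖x‖ ^ (-(n + d) + 2 : ℝ) := by
  have hR : 0 < R := by linarith [h.one]
  have hM := h.M0
  have hS := h.S0
  obtain ⟨G, G0, hG⟩ := bar h.dim h.d0 h.d1
  obtain ⟨B, B0, BS, BM⟩ : ∃ B, 0 ≤ B ∧ S ≤ B ∧ 2 * M ≤ B * R ^ (-(n + d) + 2 : ℝ) :=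
    ⟨S + 2 * M / R ^ (-(n + d) + 2 : ℝ), by positivity, le_add_of_nonneg_right (by positivity), by
      rw [add_mul, div_mul_cancel₀ _ (by positivity)]
      exact le_add_of_nonneg_left (by positivity)⟩
  refine ⟨B * G, by positivity, fun e x L he hL hx hx' => ?_⟩
  obtain ⟨φ, hφ⟩ := hG e he
  have val := fun y (hy : R ≤ ‖y‖) k => (hφ y (h.ne hy)).2 k
  have sφ := fun y (hy : R ≤ ‖y‖) => (contDiffAt_const (c := B)).mul (hφ y (h.ne hy)).1
  have pos : ∀ y : E n, R ≤ ‖y‖ → 0 ≤ ht e y → 0 ≤ B * φ y := fun y hy k =>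
    mul_nonneg B0 (le_trans (by positivity) (val y hy k).2.1)
  have key := smp (u := fun y => B * φ y - (w y - w (L y))) (K := {y | R ≤ ‖y‖ ∧ 0 ≤ ht e y})
    (O := {y | R < ‖y‖ ∧ 0 < ht e y})
    ((isClosed_le continuous_const continuous_norm).inter
      (isClosed_le continuous_const (sm_ht (m := 0) e).continuous))
    ((isOpen_lt continuous_const continuous_norm).inter
      (isOpen_lt continuous_const (sm_ht (m := 0) e).continuous))
    (fun y hy => ⟨hy.1.le, hy.2.le⟩)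
    (fun y hy => (sφ y hy.1).sub ((h.sm.c2 y).sub (c2_comp L (h.sm.c2 _))))
    (fun y hy => by
      have k1 := (h.bd y hy.1.le).2
      have k2 := (h.bd (L y) (by rw [L.norm_map]; exact hy.1.le)).2
      rw [L.norm_map] at k2
      rw [met_eu.lap_sub (sφ y hy.1.le) ((h.sm.c2 y).sub (c2_comp L (h.sm.c2 _))),
        met_eu.lap_sub (h.sm.c2 y) (c2_comp L (h.sm.c2 _)), lap_iso L (h.sm.c2 _),
        show lap (eu n) (fun y => B * φ y) y = B * lap (eu n) φ y by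
          simpa using lap_affine (g := eu n) (v := φ) (x := y) B 0]
      have k3 : S * ‖y‖ ^ (-(n + d) : ℝ) ≤ B * ‖y‖ ^ (-(n + d) : ℝ) :=
        mul_le_mul_of_nonneg_right BS (by positivity)
      linarith [(abs_lt.1 k1).1, (abs_lt.1 k2).2,
        mul_le_mul_of_nonneg_left (val y hy.1.le hy.2.le).1 B0])
    (fun y hy hy' => by
      rcases hy.2.eq_or_lt with k | k
      · rw [hL y k.symm, sub_self, sub_zero]
        exact pos y hy.1 hy.2
      · have k0 : R = ‖y‖ := hy.1.eq_or_lt.resolve_right fun c => hy' ⟨c, k⟩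
        have k1 := abs_le.1 (h.bd y hy.1).1
        have k2 := abs_le.1 (h.bd (L y) (by rw [L.norm_map]; exact hy.1)).1
        have k3 := mul_le_mul_of_nonneg_left (val y hy.1 hy.2).2.1 B0
        rw [← k0] at k3
        linarith)
    (fun ε hε => by
      obtain ⟨R', hR'⟩ := far h.lim (half_pos hε)
      refine ⟨R', fun y hy k => ?_⟩
      have k1 := abs_le.1 (hR' y k)
      have k2 := abs_le.1 (hR' (L y) (by rwa [L.norm_map]))
      linarith [pos y hy.1 hy.2])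
  linarith [key x ⟨hx, hx'⟩, mul_le_mul_of_nonneg_left (val x hx hx').2.2 B0]

/-- the oscillation on spheres -/
theorem H.sph (h : H w d R M S) : ∃ G, 0 ≤ G ∧ ∀ x x' : E n, R ≤ ‖x‖ → ‖x‖ = ‖x'‖ →
    w x - w x' ≤ G * ‖x‖ ^ (-(n + d) + 2 : ℝ) := by
  obtain ⟨G, G0, hG⟩ := h.ang
  refine ⟨G, G0, fun x x' hx e => ?_⟩
  rcases eq_or_ne x x' with rfl | hne
  · rw [sub_self]
    positivity
  have h0 : 0 < ‖x - x'‖ := norm_pos_iff.2 (sub_ne_zero.2 hne)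
  have h1 : ∀ y, ht (‖x - x'‖⁻¹ • (x - x')) y = ‖x - x'‖⁻¹ * inner ℝ (x - x') y := fun y =>
    real_inner_smul_left _ _ _
  have k := hG (‖x - x'‖⁻¹ • (x - x')) x (ℝ ∙ (x - x'))ᗮ.reflection
    (norm_smul_inv_norm (𝕜 := ℝ) (sub_ne_zero.2 hne))
    (fun y hy => Submodule.reflection_mem_subspace_eq_self
      (Submodule.mem_orthogonal_singleton_iff_inner_right.2 (by
        rw [h1] at hy
        exact (mul_eq_zero.1 hy).resolve_left (inv_ne_zero h0.ne')))) hx (by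
      rw [h1, inner_sub_left, real_inner_self_eq_norm_sq]
      refine mul_nonneg (inv_nonneg.2 h0.le) ?_
      have := real_inner_le_norm x' x
      rw [← e] at this
      nlinarith)
  rwa [Submodule.reflection_sub e] at k

theorem pw4 (hr : 0 < r) (n : ℕ) (d : ℝ) :
    r ^ (-(n + d) + 2 : ℝ) = r ^ (-d) * r ^ (2 - n : ℝ) := by
  rw [← Real.rpow_add hr, show -d + (2 - n) = -(n + d) + 2 by ring]

/-- propagation from a sphere to infinity -/
theorem H.rad (h : H w d R M S) (hr : R ≤ r) {m T : ℝ} (hT : T * (d * (n - 2 + d)) = S)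
    (T0 : 0 ≤ T) (hm : ∀ y, ‖y‖ = r → w y ≤ m * r ^ (2 - n : ℝ)) (hx : r ≤ ‖x‖) :
    w x ≤ (m + T * r ^ (-d)) * ‖x‖ ^ (2 - n : ℝ) := by
  have r0 : 0 < r := by linarith [h.one]
  have hn : (3 : ℝ) ≤ n := by exact_mod_cast h.dim
  set φ : E n → ℝ := fun y => (m + T * r ^ (-d)) * ‖y‖ ^ (2 - n : ℝ) +
    -T * ‖y‖ ^ (-(n + d) + 2 : ℝ) with hφ
  have sφ : ∀ y : E n, y ≠ 0 → ContDiffAt ℝ 2 φ y := fun y hy =>
    (contDiffAt_const.mul (contDiffAt_norm_rpow hy _)).add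
      (contDiffAt_const.mul (contDiffAt_norm_rpow hy _))
  have key := smp (u := fun y => φ y - w y) (K := {y | r ≤ ‖y‖}) (O := {y | r < ‖y‖})
    (isClosed_le continuous_const continuous_norm) (isOpen_lt continuous_const continuous_norm)
    (fun y (hy : r < ‖y‖) => hy.le) (fun y hy => (sφ y (h.ne (hr.trans hy))).sub (h.sm.c2 y))
    (fun y hy => by
      have hy' : R ≤ ‖y‖ := hr.trans (le_of_lt hy)
      have k1 := (abs_lt.1 (h.bd y hy').2).1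
      rw [met_eu.lap_sub (sφ y (h.ne hy')) (h.sm.c2 y), hφ, met_eu.lap_lin
        (contDiffAt_norm_rpow (h.ne hy') _) (contDiffAt_norm_rpow (h.ne hy') _),
        lap_eu_rpow (h.ne hy'), lap_eu_rpow (h.ne hy'), add_sub_cancel_right]
      linarith [congrArg (· * ‖y‖ ^ (-(n + d) : ℝ)) hT])
    (fun y hy hy' => by
      have k0 : ‖y‖ = r := le_antisymm (not_lt.1 hy') hy
      have k1 := hm y k0
      simp only [hφ, k0, pw4 r0]
      linarith)
    (fun ε hε => by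
      have t : Tendsto (fun y => φ y - w y) (cocompact (E n)) (𝓝 0) := by
        have := (((lim_pow (n := n) (p := 2 - n) (by linarith)).const_mul (m + T * r ^ (-d))).add
          ((lim_pow (n := n) (p := -(n + d) + 2) (by linarith [h.d0])).const_mul (-T))).sub h.lim
        simpa only [mul_zero, add_zero, sub_zero] using this
      obtain ⟨R', hR'⟩ := far t hε
      exact ⟨R', fun y _ k => (abs_le.1 (hR' y k)).1⟩)
  have k1 := key x hx
  have k2 : 0 ≤ T * ‖x‖ ^ (-(n + d) + 2 : ℝ) := by positivity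
  simp only [hφ] at k1
  linarith

theorem H.pair (h : H w d R M S) : ∃ D, 0 ≤ D ∧ ∀ x x' : E n, R ≤ ‖x'‖ → ‖x'‖ ≤ ‖x‖ →
    w x / ‖x‖ ^ (2 - n : ℝ) - w x' / ‖x'‖ ^ (2 - n : ℝ) ≤ D * ‖x'‖ ^ (-d) := by
  have hn : (3 : ℝ) ≤ n := by exact_mod_cast h.dim
  have c0 : 0 < d * (n - 2 + d) := mul_pos h.d0 (by linarith [h.d0])
  have T0 := div_nonneg h.S0 c0.le
  obtain ⟨G, G0, hG⟩ := h.sph
  refine ⟨G + S / (d * (n - 2 + d)), add_nonneg G0 T0, fun x x' h1 h2 => ?_⟩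
  have r0 : 0 < ‖x'‖ := by linarith [h.one]
  have k := h.rad h1 (m := w x' / ‖x'‖ ^ (2 - n : ℝ) + G * ‖x'‖ ^ (-d)) (div_mul_cancel₀ _ c0.ne')
    T0 (fun y hy => by
      have k1 := hG y x' (hy ▸ h1) hy
      rw [hy, pw4 r0] at k1
      rw [add_mul, div_mul_cancel₀ _ (Real.rpow_pos_of_pos r0 _).ne']
      linarith) h2
  rw [← div_le_iff₀ (Real.rpow_pos_of_pos (r0.trans_le h2) _)] at k
  linarith

/-- the limit of a function with small oscillation -/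
theorem ex_lim' (hn : 0 < n) {u : E n → ℝ} {D : ℝ} (hR : 0 < R) (d0 : 0 < d)
    (h : ∀ x x' : E n, R ≤ ‖x'‖ → ‖x'‖ ≤ ‖x‖ → |u x - u x'| ≤ D * ‖x'‖ ^ (-d)) :
    ∃ β, ∀ x, R ≤ ‖x‖ → |u x - β| ≤ D * ‖x‖ ^ (-d) := by
  let s : ℕ → E n := fun k => EuclideanSpace.single ⟨0, hn⟩ (R + k)
  have hs : ∀ k, ‖s k‖ = R + k := fun k => by
    simp only [s, PiLp.norm_single]
    exact Real.norm_of_nonneg (by positivity)
  have ht : Tendsto (fun k : ℕ => R + k) atTop atTop :=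
    tendsto_atTop_add_const_left _ _ tendsto_natCast_atTop_atTop
  obtain ⟨β, hβ⟩ := cauchySeq_tendsto_of_complete (cauchySeq_of_le_tendsto_0'
    (s := fun k => u (s k)) (fun k => D * (R + k) ^ (-d)) (fun j k hjk => by
      rw [dist_comm, Real.dist_eq, ← hs j]
      refine h _ _ (by rw [hs]; linarith [Nat.cast_nonneg (α := ℝ) j]) ?_
      rw [hs, hs]
      gcongr) (by simpa using ((tendsto_rpow_neg_atTop d0).comp ht).const_mul D))
  refine ⟨β, fun x hx => ?_⟩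
  rw [abs_sub_comm]
  refine le_of_tendsto (hβ.sub_const (u x)).abs ?_
  filter_upwards [ht.eventually_ge_atTop ‖x‖] with k hk
  exact h _ _ hx (hs k ▸ hk)

theorem H.est (h : H w d R M S) : ∃ β D, 0 ≤ D ∧ ∀ x, R ≤ ‖x‖ →
    |w x - β * ‖x‖ ^ (2 - n : ℝ)| ≤ D * ‖x‖ ^ (-(n + d) + 2 : ℝ) := by
  have R0 : 0 < R := by linarith [h.one]
  obtain ⟨D, D0, hD⟩ := h.pair
  obtain ⟨D', D0', hD'⟩ := h.neg.pair
  obtain ⟨β, hβ⟩ := ex_lim' (by linarith [h.dim]) (u := fun x => w x / ‖x‖ ^ (2 - n : ℝ))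
    (D := D + D') R0 h.d0 fun x x' h1 h2 => by
      have k := hD' x x' h1 h2
      have p : 0 ≤ ‖x'‖ ^ (-d) := by positivity
      simp only [neg_div] at k
      exact abs_le.2 ⟨by linarith [mul_nonneg D0 p], by linarith [hD x x' h1 h2, mul_nonneg D0' p]⟩
  refine ⟨β, D + D', add_nonneg D0 D0', fun x hx => ?_⟩
  have r0 : 0 < ‖x‖ := R0.trans_le hx
  have p0 := Real.rpow_pos_of_pos r0 (2 - n : ℝ)
  have k := mul_le_mul_of_nonneg_right (hβ x hx) p0.le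
  rwa [mul_assoc, ← pw4 r0, ← abs_of_pos p0, ← abs_mul, abs_of_pos p0, sub_mul,
    div_mul_cancel₀ _ p0.ne'] at k

theorem new : P366RB.NEW := by
  rintro n v d hn d0 d1 hv ⟨C, R1, hC⟩ hl
  have hn' : (3 : ℝ) ≤ n := by exact_mod_cast hn
  obtain ⟨R2, h2⟩ := far hl one_pos
  obtain ⟨R, hR, k1, k2⟩ : ∃ R, 1 ≤ R ∧ R1 < R ∧ R2 ≤ R := ⟨max (max 1 (R1 + 1)) R2,
    le_max_of_le_left (le_max_left _ _), (lt_add_one _).trans_le (le_max_of_le_left
      (le_max_right _ _)), le_max_right _ _⟩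
  obtain ⟨S, S0, hS⟩ : ∃ S, 0 ≤ S ∧ C < S := ⟨|C| + 1, by positivity, by linarith [le_abs_self C]⟩
  have h : H v d R 1 S := ⟨hn, d0, d1, hR, zero_le_one, S0, hv, fun x hx => ⟨h2 x (k2.trans hx),
    (hC x (k1.trans_le hx)).trans_lt (mul_lt_mul_of_pos_right hS
      (Real.rpow_pos_of_pos (one_pos.trans_le (hR.trans hx)) _))⟩, hl⟩
  obtain ⟨β, D, D0, est⟩ := h.est
  refine ⟨β, ⟨D, R, fun x hx => by
    rw [show -(n - 2 + d : ℝ) = -(n + d) + 2 by ring]; exact est x hx.le⟩, fun i =>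
    ⟨(n + 1) * (S + 2 * D) * 2 ^ (n - 1 + d : ℝ), 2 * R, fun x (hx : 2 * R < ‖x‖) => ?_⟩⟩
  set ρ : ℝ := ‖x‖ / 2 with hρ
  have ρ0 : 0 < ρ := by linarith
  have x0 : x ≠ 0 := norm_pos_iff.1 (by linarith)
  set z : E n → ℝ := fun y => 1 * v y + -β * ‖y‖ ^ (2 - n : ℝ) with hz
  have k := abs_pd_le' (f := fun y => z (y - -x)) (M := D * ρ ^ (-(n + d) + 2 : ℝ))
    (S := S * ρ ^ (-(n + d) : ℝ)) ρ0 (by positivity) (by positivity) (fun y hy => by
      have a1 : ρ ≤ ‖y - -x‖ := by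
        have := norm_sub_norm_le (-x) y
        rw [norm_neg, norm_sub_rev] at this
        linarith
      have a2 : R ≤ ‖y - -x‖ := by linarith
      have a3 : y - -x ≠ 0 := norm_pos_iff.1 (by linarith)
      have a4 : ContDiffAt ℝ 2 z (y - -x) := (contDiffAt_const.mul (hv.c2 _)).add
        (contDiffAt_const.mul (contDiffAt_norm_rpow a3 _))
      refine ⟨a4.comp y (contDiffAt_id.sub contDiffAt_const), ?_, ?_⟩
      · have a5 := (est _ a2).trans (mul_le_mul_of_nonneg_left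
          (Real.rpow_le_rpow_of_nonpos ρ0 a1 (by linarith)) D0)
        simpa only [hz, one_mul, neg_mul, ← sub_eq_add_neg] using a5
      · rw [lap_eu_translate, hz, met_eu.lap_lin (hv.c2 _) (contDiffAt_norm_rpow a3 _),
          lap_eu_rpow a3, one_mul, show (2 - n + n - 2 : ℝ) = 0 by ring, mul_zero, zero_mul,
          mul_zero, add_zero]
        exact (h.bd _ a2).2.trans_le (mul_le_mul_of_nonneg_left
          (Real.rpow_le_rpow_of_nonpos ρ0 a1 (by linarith)) S0)) i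
  obtain ⟨p1, p2, -⟩ := pws ρ0 (-(n + d))
  rw [pd_translate, zero_sub, neg_neg, hz, pd_add ((hv.diff x).const_mul 1)
    ((diff2 (contDiffAt_norm_rpow x0 _)).const_mul _), pd_const_mul, pd_const_mul,
    pd_norm_rpow x0, show (2 - n - 2 : ℝ) = -n by ring, p2,
    show S * ρ ^ (-(n + d) : ℝ) * ρ + 2 * (D * (ρ ^ (-(n + d) : ℝ) * ρ ^ 2)) / ρ =
      (S + 2 * D) * (ρ ^ (-(n + d) : ℝ) * ρ) by field_simp, ← p1,
    show (-(n + d) + 1 : ℝ) = -(n - 1 + d) by ring, hρ,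
    Real.div_rpow (norm_nonneg x) zero_le_two, Real.rpow_neg zero_le_two, div_inv_eq_mul] at k
  exact (congrArg abs (by ring)).trans_le (k.trans_eq (by rw [len]; ring))

end Vale.Agent.P366NW
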