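import Vale.Agent.P366NW.Rb1

/-!
# P366NW: the rigidity of static metrics by the maximum principle
-/

open Filter Topology Set
open scoped ContDiff
open Vale.Agent.P366M Vale.Agent.P366DV
open Vale.Agent.P366RB (ex ROB)

noncomputable section

namespace Vale.Agent.P366NW

/-- the weight and its derivatives -/
def r0 (p t : ℝ) : ℝ := (1 - t ^ 2) ^ p
def r1 (p t : ℝ) : ℝ := -2 * p * t / (1 - t ^ 2) * r0 p t
def r2 (p t : ℝ) : ℝ := (-2 * p / (1 - t ^ 2) + 4 * p * (p - 1) * t ^ 2 / (1 - t ^ 2) ^ 2) * r0 p t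

variable {p t : ℝ}

theorem r0_pos (ht : 0 < 1 - t ^ 2) : 0 < r0 p t := Real.rpow_pos_of_pos ht p

theorem r0_cd (ht : 0 < 1 - t ^ 2) {m : WithTop ℕ∞} : ContDiffAt ℝ m (r0 p) t :=
  (contDiffAt_const.sub (contDiffAt_id.pow 2)).rpow_const_of_ne ht.ne'

theorem q_d (t : ℝ) : HasDerivAt (fun t : ℝ => 1 - t ^ 2) (-(2 * t)) t := by
  simpa using (hasDerivAt_pow 2 t).const_sub 1

theorem r0_d (ht : 0 < 1 - t ^ 2) : HasDerivAt (r0 p) (r1 p t) t :=
  ((q_d t).rpow_const (.inl ht.ne')).congr_deriv (by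
    rw [r1, r0, Real.rpow_sub_one ht.ne']; ring)

theorem r1_d (ht : 0 < 1 - t ^ 2) : HasDerivAt (r1 p) (r2 p t) t :=
  ((((hasDerivAt_id' t).const_mul (-2 * p)).fun_div (q_d t) ht.ne').fun_mul (r0_d ht)).congr_deriv (by
    have := ht.ne'
    rw [r1, r2]; field_simp; ring)

theorem q_ev (ht : 0 < 1 - t ^ 2) : ∀ᶠ s : ℝ in 𝓝 t, 0 < 1 - s ^ 2 :=
  (q_d t).continuousAt.eventually_const_lt ht

variable {n : ℕ} {M : Type} [Mfe n M] {U : Set M} {h : Fld n M} {x : M} {u v V : M → ℝ}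

/-- the operator and the function of Robinson -/
def Lo (h : Fld n M) (V u : M → ℝ) (x : M) : ℝ :=
  lap h u x - (1 / V x + 4 * V x / (1 - V x ^ 2)) * ip h V u x
def Pf (h : Fld n M) (V : M → ℝ) (x : M) : ℝ := ip h V V x * r0 (-ex n) (V x)

/-- static metrics on `U` -/
structure Sc (U : Set M) (h : Fld n M) (V : M → ℝ) : Prop where
  dim : 3 ≤ n
  met : MOn h U
  out : Out U V 0
  lt : ∀ x ∈ U, V x < 1
  eq : ∀ x ∈ U, CAt ∞ V x ∧ lap h V x = 0 ∧ ∀ i j, V x * ric h x i j = hess h V x i j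

theorem Lo_sub (hh : MOn h U) (hx : x ∈ U) (hu : CAt 2 u x) (hv : CAt 2 v x) :
    Lo h V (fun y => u y - v y) x = Lo h V u x - Lo h V v x := by
  rw [Lo, m_sub hh hx hu hv, ip_of_pd_add' (s := 1) (t := -1) (v₁ := u) (v₂ := v) fun i => by
    rw [pd_sub (hu.differentiableAt two_ne_zero) (hv.differentiableAt two_ne_zero)]; ring, Lo, Lo]
  ring

namespace Sc
variable (s : Sc U h V)
include s

theorem q (hx : x ∈ U) : 0 < 1 - V x ^ 2 := by nlinarith [s.out.gt x hx, s.lt x hx]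
theorem c2 (hx : x ∈ U) : CAt 2 V x := (s.eq x hx).1.of_le two_le_oo
theorem d1 (hx : x ∈ U) : DAt V x := (s.c2 hx).differentiableAt two_ne_zero
theorem cW (hx : x ∈ U) : CAt 2 (ip h V V) x :=
  (m_cip s.met hx fun z k => (s.eq z k).1).of_le two_le_oo
theorem cP (hx : x ∈ U) : CAt 2 (Pf h V) x := (s.cW hx).mul ((r0_cd (s.q hx)).compM (s.c2 hx))
theorem P0 (hx : x ∈ U) : 0 ≤ Pf h V x := mul_nonneg (m_nn s.met hx V) (r0_pos (s.q hx)).le

theorem comp (hx : x ∈ U) {φ φ1 : ℝ → ℝ} {c : ℝ} (h0 : ContDiffAt ℝ 2 φ (V x))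
    (h1 : ∀ t, 0 < 1 - t ^ 2 → HasDerivAt φ (φ1 t) t) (h2 : HasDerivAt φ1 c (V x)) :
    lap h (fun y => φ (V y)) x = c * ip h V V x ∧
      ∀ u, ip h u (fun y => φ (V y)) x = φ1 (V x) * ip h u V x := by
  refine ⟨?_, fun u => ip_comp_right (h1 _ (s.q hx)) (s.d1 hx)⟩
  have : deriv φ =ᶠ[𝓝 (V x)] φ1 := (q_ev (s.q hx)).mono fun t ht => (h1 t ht).deriv
  rw [m_comp s.met hx (s.c2 hx) h0, (s.eq x hx).2.1, this.deriv_eq, h2.deriv, mul_zero, zero_add]

/-- the identity for the function of Robinson -/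
theorem LP (hx : x ∈ U) : 0 ≤ Lo h V (Pf h V) x ∧ (Lo h V (Pf h V) x = 0 → ∀ i j,
    hess h V x i j = -(2 * n * V x / ((n - 2) * (1 - V x ^ 2))) *
      (pd i V x * pd j V x - ip h V V x / n * h x i j)) := by
  have n3 : (3 : ℝ) ≤ n := by exact_mod_cast s.dim
  obtain ⟨t, t0, t1, k⟩ := m_key (by linarith [s.dim]) s.met hx
    (2 * n * V x / ((n - 2) * (1 - V x ^ 2))) s.eq
  have q := s.q hx
  have v0 := s.out.gt x hx
  have c := (r0_cd (p := -ex n) q).compM (s.c2 hx)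
  obtain ⟨k1, k2⟩ := s.comp hx (r0_cd (p := -ex n) q) (fun _ => r0_d) (r1_d q)
  have e : Lo h V (Pf h V) x = 2 * r0 (-ex n) (V x) * t := by
    have a1 : (n : ℝ) - 2 ≠ 0 := by linarith
    have a2 : (n : ℝ) ≠ 0 := by linarith
    have a3 := q.ne'
    have a4 := v0.ne'
    unfold Lo Pf
    rw [m_mul s.met hx (s.cW hx) c, ip_mul_right ((s.cW hx).differentiableAt two_ne_zero)
      (c.differentiableAt two_ne_zero), k1, k2, ip_comp_left (r0_d q) (s.d1 hx),
      (eq_div_iff a4).2 ((mul_comm _ _).trans k), r1, r2, ex]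
    field_simp
    ring
  have p := r0_pos (p := -ex n) q
  exact ⟨by rw [e]; positivity, fun k => t1 ((mul_eq_zero.1 (e.symm.trans k)).resolve_left
    (by positivity))⟩

/-- the comparison principle -/
theorem cmp {a A B : ℝ} (a0 : 0 < a) (h0 : ∀ x ∈ U, a ≤ V x → 0 ≤ A + B * r0 (-1) (V x))
    (h1 : ∀ x ∈ U, V x = a → Pf h V x ≤ A + B * r0 (-1) (V x))
    (h2 : ∀ᶠ x in cocompact M, Pf h V x ≤ A + B * r0 (-1) (V x)) :
    ∀ x ∈ U, a ≤ V x → Pf h V x ≤ A + B * r0 (-1) (V x) := fun x0 hx0 ha => by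
  by_contra hc
  obtain ⟨R, hR⟩ := ev_cocompact.1 h2
  obtain ⟨ε, ε0, hε⟩ : ∃ ε, 0 < ε ∧ Pf h V x0 = A + B * r0 (-1) (V x0) + ε :=
    ⟨Pf h V x0 - (A + B * r0 (-1) (V x0)), sub_pos.2 (not_le.1 hc), by ring⟩
  have cφ : ∀ y ∈ U, ContDiffAt ℝ 2 (fun t => A + B * r0 (-1) t + ε * t) (V y) := fun y hy =>
    (contDiffAt_const.add (contDiffAt_const.mul (r0_cd (s.q hy)))).add
      (contDiffAt_const.mul contDiffAt_id)
  have cz := fun y hy => (s.cP hy).sub ((cφ y hy).compM (s.c2 hy))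
  obtain ⟨x, hx, hm⟩ := (s.out.cpt a a0 R).exists_isMaxOn
    (f := fun y => Pf h V y - (A + B * r0 (-1) (V y) + ε * V y))
    ⟨x0, hx0, ha, le_of_not_ge fun k => hc (hR x0 k)⟩
    fun y hy => (cz y hy.1).continuousAt.continuousWithinAt
  have k0 : Pf h V x0 - _ ≤ Pf h V x - _ := hm ⟨hx0, ha, le_of_not_ge fun k => hc (hR x0 k)⟩
  have v0 := s.out.gt x hx.1
  have k1 : A + B * r0 (-1) (V x) < Pf h V x := by
    linarith [mul_lt_mul_of_pos_left (s.lt x0 hx0) ε0, mul_pos ε0 v0]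
  have k2 : a < V x := hx.2.1.lt_of_ne fun k => k1.not_ge (h1 x hx.1 k.symm)
  have k3 : ‖px x‖ < R := lt_of_not_ge fun k => k1.not_ge (hR x k)
  obtain ⟨m1, m2⟩ := m_max (v := V) s.met hx.1 (cz x hx.1) (hm.isLocalMax (by
    filter_upwards [s.met.op.mem_nhds hx.1, (s.c2 hx.1).continuousAt.eventually_const_lt k2,
      cont_npx.continuousAt.eventually_lt_const k3] with y b1 b2 b3
    exact ⟨b1, b2.le, b3.le⟩))
  have q := s.q hx.1
  obtain ⟨k4, k5⟩ := s.comp hx.1 (φ1 := fun t => B * r1 (-1) t + ε) (cφ x hx.1) (fun t ht =>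
    ((((r0_d ht).const_mul B).const_add A).fun_add
      ((hasDerivAt_id' t).const_mul ε)).congr_deriv (by ring))
    (((r1_d q).const_mul B).add_const ε)
  have k6 := Lo_sub (V := V) s.met hx.1 (s.cP hx.1) ((cφ x hx.1).compM (s.c2 hx.1))
  have W0 : 0 < ip h V V x := pos_of_mul_pos_left ((h0 x hx.1 hx.2.1).trans_lt k1)
    (r0_pos q).le
  have k7 : r2 (-1) (V x) = (1 / V x + 4 * V x / (1 - V x ^ 2)) * r1 (-1) (V x) := by
    have := q.ne'
    rw [r1, r2]; field_simp; ring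
  have k8 : 0 < (1 / V x + 4 * V x / (1 - V x ^ 2)) * ε * ip h V V x := by positivity
  rw [Lo, m1, Lo.eq_1 h V fun y => A + _ + _, k4, k5, k7] at k6
  linarith [(s.LP hx.1).1]

end Sc

theorem rob : ROB := by
  intro n M _ U h V κ hn hh ho hc hV hi hl h1 hP
  have : NoncompactSpace M := ⟨not_compact (by omega)⟩
  have far : ∀ᶠ x in cocompact M, x ∈ U :=
    let ⟨R, hR⟩ := ho.far
    ev_cocompact.2 ⟨R + 1, fun x k => hR x (by linarith)⟩
  have c2 := fun x hx => (hV x hx).1.of_le two_le_oo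
  have lt : ∀ x ∈ U, V x < 1 := fun x0 hx0 => by
    by_contra k
    obtain ⟨R, hR⟩ := ev_cocompact.1 h1
    have m0 : x0 ∈ {x ∈ U | 1 ≤ V x ∧ ‖px x‖ ≤ R} :=
      ⟨hx0, not_lt.1 k, le_of_not_ge fun c => k (hR x0 c)⟩
    obtain ⟨x, hx, hm⟩ := (ho.cpt 1 one_pos R).exists_isMaxOn (f := V) ⟨x0, m0⟩
      fun y hy => (c2 y hy.1).continuousAt.continuousWithinAt
    have := m_smp (u := fun y => V x - V y) (v := fun _ => 0) hh hc (fun _ _ => cAt_const)
      (fun z hz => ⟨cAt_const.sub (c2 z hz), sub_nonneg.2 ((lt_or_ge (V z) 1).elim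
        (fun c => c.le.trans hx.2.1) fun c => hm ⟨hz, c, le_of_not_ge fun c' => c.not_gt (hR z c')⟩),
        by rw [lap_const_sub, (hV z hz).2.1, ip_const_left]; simp⟩) hx.1 (sub_self _)
    obtain ⟨y, k1, k2⟩ := (far.and h1).exists
    linarith [this y k1, hx.2.1]
  have s : Sc U h V := ⟨hn, hh, ho, lt, hV⟩
  have eP : ∀ x ∈ U, ip h V V x / (1 - V x ^ 2) ^ ex n = Pf h V x := fun x hx => by
    rw [Pf, r0, Real.rpow_neg (s.q hx).le, div_eq_mul_inv]
  have hP' : Tendsto (Pf h V) (cocompact M) (𝓝 (κ ^ 2)) := hP.congr' (far.mono eP)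
  have up : ∀ x ∈ U, Pf h V x ≤ κ ^ 2 := fun x hx => le_of_forall_pos_le_add fun e e0 => by
    obtain ⟨d, d0, hd⟩ := hi (e / 2) (half_pos e0)
    have c : ContinuousAt (fun t => (κ ^ 2 + e / 2) * r0 (-ex n) t) 0 :=
      continuousAt_const.mul (r0_cd (m := 0) (by norm_num)).continuousAt
    obtain ⟨a, ⟨a1, a2, a3⟩, a0⟩ := ((((c.eventually_lt_const (show _ < κ ^ 2 + e by
      simp [r0, e0])).and ((eventually_le_nhds d0).and (eventually_le_nhds
      (ho.gt x hx)))).filter_mono (nhdsWithin_le_nhds (s := Ioi 0))).and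
      self_mem_nhdsWithin).exists
    simpa using s.cmp (A := κ ^ 2 + e) (B := 0) a0 (fun _ _ _ => by
      linarith [sq_nonneg κ]) (fun y hy k => by
      rw [← k] at a1 a2
      linarith [mul_le_mul_of_nonneg_right (hd y hy a2) (r0_pos (p := -ex n) (s.q hy)).le,
        Pf.eq_1 h V y]) ((hP'.eventually_lt_const (lt_add_of_pos_right _ e0)).mono fun y k => by
      linarith) x hx a3
  obtain ⟨x0, hx0⟩ := far.exists
  have a0 := ho.gt x0 hx0
  have fa := hl.eventually_const_lt (lt x0 hx0)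
  obtain ⟨R, hR⟩ := ev_cocompact.1 fa
  have cV : ContinuousOn V U := fun y hy => (c2 y hy).continuousAt.continuousWithinAt
  obtain ⟨x1, ⟨hx1, e1⟩, hm⟩ := (((ho.cpt _ a0 R).of_isClosed_subset ((cV.mono
    fun _ k => k.1).preimage_isClosed_of_isClosed (ho.cpt _ a0 R).isClosed
    (isClosed_singleton (x := V x0))) inter_subset_left)).exists_isMaxOn (f := Pf h V)
    ⟨x0, ⟨hx0, le_rfl, le_of_not_ge fun c => (hR x0 c).false⟩, rfl⟩
    fun y hy => (s.cP hy.1.1).continuousAt.continuousWithinAt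
  have mo : ∀ x ∈ U, V x0 ≤ V x → r0 (-1) (V x0) ≤ r0 (-1) (V x) := fun x hx k =>
    Real.rpow_le_rpow_of_nonpos (s.q hx) (by nlinarith) (by norm_num)
  have top : Tendsto (fun x => r0 (-1) (V x)) (cocompact M) atTop := by
    simp only [r0, Real.rpow_neg_one]
    exact tendsto_inv_nhdsGT_zero.comp (tendsto_nhdsWithin_iff.2
      ⟨by simpa using (hl.pow 2).const_sub 1, far.mono fun _ => s.q⟩)
  have dn : ∀ x ∈ U, V x0 ≤ V x → Pf h V x ≤ Pf h V x1 := fun x hx k =>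
    le_of_forall_pos_le_add fun e e0 => by
      have p := r0_pos (p := -1) (s.q hx)
      obtain ⟨δ, δ0, hδ⟩ : ∃ δ, 0 < δ ∧ δ * r0 (-1) (V x) = e :=
        ⟨e / _, div_pos e0 p, div_mul_cancel₀ _ p.ne'⟩
      have := s.cmp (A := Pf h V x1 - δ * r0 (-1) (V x0)) (B := δ) a0 (fun y hy k => by
        linarith [s.P0 hx1.1, mul_le_mul_of_nonneg_left (mo y hy k) δ0.le]) (fun y hy k => by
        have : Pf h V y ≤ Pf h V x1 :=
          hm ⟨⟨hy, k.ge, le_of_not_ge fun c => (hR y c).ne' k⟩, k⟩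
        rw [k]; linarith) (by
        filter_upwards [far, (top.const_mul_atTop δ0).eventually_ge_atTop
          (κ ^ 2 + δ * r0 (-1) (V x0))] with y k1 k2
        linarith [up y k1, s.P0 hx1.1]) x hx k
      linarith [mul_pos δ0 (r0_pos (p := -1) (s.q hx0))]
  have z := m_smp (u := fun y => κ ^ 2 - Pf h V y)
    (v := fun y => Real.log (1 - V y ^ 2) - Real.log (V y) / 2) hh hc (fun z hz =>
      ((cAt_const.sub ((hV z hz).1.pow 2)).log (s.q hz).ne').sub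
        (((hV z hz).1.log (ho.gt z hz).ne').div_const 2))
    (fun z hz => ⟨cAt_const.sub (s.cP hz), sub_nonneg.2 (up z hz), by
      have k := (s.LP hz).1
      rw [lap_const_sub, ip_comp_left (φ := fun t => Real.log (1 - t ^ 2) - Real.log t / 2)
        (((q_d _).log (s.q hz).ne').fun_sub ((Real.hasDerivAt_log (ho.gt z hz).ne').div_const 2))
        (s.d1 hz), ip_comp_right (φ := fun t => κ ^ 2 - t) ((hasDerivAt_id' _).const_sub _)
        ((s.cP hz).differentiableAt two_ne_zero)]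
      rw [Lo] at k
      exact le_of_eq_of_le (by ring) (neg_nonpos.2 k)⟩) hx1.1 (sub_eq_zero.2 (le_antisymm
      (le_of_tendsto hP' ((far.and fa).mono fun y k => dn y k.1 k.2.le)) (up x1 hx1.1)))
  refine fun x hx => ⟨lt x hx, ?_, (s.LP hx).2 ?_⟩
  · rw [sub_eq_zero.1 (z x hx), ← eP x hx, div_mul_cancel₀ _ (Real.rpow_pos_of_pos (s.q hx) _).ne']
  · have : Pf h V =ᶠ[𝓝 x] fun _ => κ ^ 2 :=
      mem_of_superset (hh.op.mem_nhds hx) fun y hy => (sub_eq_zero.1 (z y hy)).symm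
    rw [Lo, lap_congr this, ip_congr EventuallyEq.rfl this, lap_const, ip_const_right, mul_zero,
      sub_zero]

end Vale.Agent.P366NW
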