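import Vale.Agent.P366NW.Gt1
import Vale.Agent.P366K.Defs
import Vale.Agent.P366RB.Cov

/-!
# P366NW: rules for the divergence of tensors; the variations of the time
-/

set_option linter.all false

open Filter Topology Matrix
open scoped ContDiff
open Vale.Agent.P366.Stmt Vale.Agent.P366Z
open Vale.Agent.P366Y.C (rc Sy)
open Vale.Agent.P366P (Mx DA Dm Gam Dm_mul scal_eq_tr)
open Vale.Agent.P366XR (cT cM Sm ev hi lo tr_eq sm_tr mom_eq dv_sh)
open Vale.Agent.P366K.C

noncomputable section

namespace Vale.Agent.P366NW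

variable {n : ℕ} {g K A B T : Field n} {f φ : E n → ℝ} {x : E n}

theorem pr_eq (hg : Met g) (hA : ∀ i j, A x i j = A x j i) (B : Field n) :
    pr g A B x = trace (Hm g x * (mat A x * (Hm g x * mat B x))) := by
  simp only [pr, trace, diag, mul_apply, Finset.mul_sum]
  refine ((Finset.sum_congr rfl fun i _ => (P366P.rot3 _).trans (P366P.rot3 _)).trans
    Finset.sum_comm).trans (Finset.sum_congr rfl fun l _ => Finset.sum_comm.trans
    (Finset.sum_congr rfl fun j _ => Finset.sum_congr rfl fun i _ =>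
      Finset.sum_congr rfl fun k _ => ?_))
  rw [hg.up_sy j l, hA i j]
  simp only [up, mat, Hm]
  ring

theorem tr_H (hg : Met g) (T : Field n) (x : E n) : tr g T x = trace (Hm g x * mat T x) :=
  tr_eq hg T x

theorem HG (hg : Met g) (x : E n) : Hm g x * mat g x = 1 := P366XR.inv_mul hg x
theorem GH (hg : Met g) (x : E n) : mat g x * Hm g x = 1 := P366XR.mul_inv hg x
theorem HG' (hg : Met g) (x : E n) (C : Mx n) : Hm g x * (mat g x * C) = C := by
  rw [← Matrix.mul_assoc, HG hg, Matrix.one_mul]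
theorem GH' (hg : Met g) (x : E n) (C : Mx n) : mat g x * (Hm g x * C) = C := by
  rw [← Matrix.mul_assoc, GH hg, Matrix.one_mul]

theorem tr4 (a b c d : Mx n) : trace (a * (b * (c * d))) = trace (c * (d * (a * b))) := by
  rw [← Matrix.mul_assoc, trace_mul_comm, Matrix.mul_assoc]

theorem mat_momT (g T : Field n) (x : E n) :
    mat (momT g T) x = mat T x - tr g T x • mat g x := rfl

theorem mat_ml (g A B : Field n) (x : E n) :
    mat (ml g A B) x = mat A x * (Hm g x * mat B x) := by
  ext i j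
  simp only [mul_apply, Finset.mul_sum, ← mul_assoc]
  rfl

theorem mat_smul (f : E n → ℝ) (T : Field n) (x : E n) :
    mat (fun y i j => f y * T y i j) x = f x • mat T x := rfl

theorem mat_kt (g K : Field n) (φ : E n → ℝ) (x : E n) : mat (kt g K φ) x = mat (hess g φ) x -
    φ x • (mat (rc g) x + tr g K x • mat K x - (2 : ℝ) • mat (ml g K K) x) +
      (φ x * mu g K x / (n - 1)) • mat g x := rfl

theorem mat_Wt (g K h k : Field n) (x : E n) : mat (Wt g K h k) x =
    mat (momT g k) x + (pr g K h x - pr g (momT g K) h x / 2) • mat g x - tr g K x • mat h x -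
      mat (ml g h (momT g K)) x + (tr g h x / 2) • mat (momT g K) x := rfl

theorem mu_eq (hg : Met g) (hK : ∀ i j, K x i j = K x j i) : mu g K x =
    (trace (Hm g x * mat (rc g) x) + tr g K x ^ 2 -
      trace (Hm g x * (mat K x * (Hm g x * mat K x)))) / 2 := by
  rw [← pr_eq hg hK, ← tr_H hg, ← scal_eq_tr hg]
  rfl

theorem sy_momT (hg : Met g) (hK : Sy K) : Sy (momT g K) :=
  ⟨fun i j => ContDiff.sub (hK.sm i j) (ContDiff.mul (sm_tr hg hK.sm) (hg.sm i j)),
    fun x i j => by simp only [momT, hK.sy x i j, hg.sy x i j]⟩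

theorem sy_smul (hf : Smooth f) (hK : Sy K) : Sy fun y i j => f y * K y i j :=
  ⟨fun i j => ContDiff.mul hf (hK.sm i j), fun x i j => by simp only [hK.sy x i j]⟩

theorem sm_cT (hg : Met g) (hT : Sm T) (k i j : Fin n) : Smooth (cT g T k i j) :=
  ContDiff.sub ((hT i j).pd k) (ContDiff.sum fun l _ => ContDiff.add
    (ContDiff.mul (hg.sm_chr l k i) (hT l j)) (ContDiff.mul (hg.sm_chr l k j) (hT i l)))

theorem sm_dvT (hg : Met g) (hT : Sm T) (j : Fin n) : Smooth (dvT g T j) :=
  ContDiff.sum fun i _ => ContDiff.sum fun k _ => ContDiff.mul (hg.sm_up i k) (sm_cT hg hT k i j)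

theorem sm_mom (hg : Met g) (hK : Sy K) (j : Fin n) : Smooth (mom g K j) :=
  sm_dvT hg (sy_momT hg hK).sm j

theorem sm_pr (hg : Met g) (hA : Sm A) (hB : Sm B) : Smooth (pr g A B) :=
  ContDiff.sum fun i _ => ContDiff.sum fun j _ => ContDiff.sum fun k _ => ContDiff.sum fun l _ =>
    (((hg.sm_up i k).mul (hg.sm_up j l)).mul (hA i j)).mul (hB k l)

theorem sm_mu (hg : Met g) (hK : Sm K) : Smooth (mu g K) :=
  ((ContDiff.add hg.sm_scal (ContDiff.pow (sm_tr hg hK) 2)).sub (sm_pr hg hK hK)).div_const 2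

theorem dvT_eq (g T : Field n) (j : Fin n) (x : E n) :
    dvT g T j x = ∑ i, ∑ k, up g i k x * cT g T k i j x := rfl

theorem dvT_add (hA : Sm A) (hB : Sm B) (j : Fin n) :
    dvT g (fun y a b => A y a b + B y a b) j x = dvT g A j x + dvT g B j x := by
  simp only [dvT_eq, ← Finset.sum_add_distrib, ← mul_add]
  exact Finset.sum_congr rfl fun i _ => Finset.sum_congr rfl fun k _ => congrArg _
    (P366RB.cK_add (fun a b => (hA a b).diff x) (fun a b => (hB a b).diff x) k i j)

theorem dvT_smul (hf : DifferentiableAt ℝ f x) (hT : Sm T) (j : Fin n) :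
    dvT g (fun y a b => f y * T y a b) j x = ∑ i, gr g f i x * T x i j + f x * dvT g T j x := by
  simp only [dvT_eq, gr, Finset.mul_sum, Finset.sum_mul, ← Finset.sum_add_distrib]
  refine Finset.sum_congr rfl fun i _ => Finset.sum_congr rfl fun k _ => ?_
  rw [show cT g (fun y a b => f y * T y a b) k i j x = _ from
    P366RB.cK_smul hf (fun a b => (hT a b).diff x) k i j]
  show _ * (_ + _ * cT g T k i j x) = _
  ring

theorem dvT_fg (hg : Met g) (hf : DifferentiableAt ℝ f x) (j : Fin n) :
    dvT g (fun y a b => f y * g y a b) j x = pd j f x := by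
  have : dvT g g j x = 0 := Finset.sum_eq_zero fun i _ => Finset.sum_eq_zero fun k _ =>
    mul_eq_zero_of_right _ (P366RB.cK_g hg k i j)
  rw [dvT_smul hf hg.sm, this, ← hg.g_up_mul x j fun k => pd k f x]
  simp only [gr, mul_zero, add_zero, hg.sy x j, mul_comm (g x _ j)]

theorem cM_momT (hg : Met g) (hT : Sm T) (k : Fin n) :
    cM g (momT g T) k x = cM g T k x - pd k (tr g T) x • mat g x := by
  ext i j
  have d := ((sm_tr hg hT).diff x).fun_neg
  have e : momT g T = fun y a b => T y a b + -tr g T y * g y a b := by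
    funext y a b; simp only [momT]; ring
  have := P366RB.cK_add (g := g) (fun a b => (hT a b).diff x)
    (fun a b => d.fun_mul ((hg.sm a b).diff x)) k i j
  rw [P366RB.cK_smul d fun a b => (hg.sm a b).diff x, P366RB.cK_g hg, pd_neg] at this
  rw [e]
  refine this.trans ?_
  show cT g T k i j x + _ = cT g T k i j x - pd k (tr g T) x * g x i j
  ring

theorem pd_trace {C : E n → Mx n} (hC : DA C x) (k : Fin n) :
    pd k (fun y => trace (C y)) x = trace (Dm k C x) :=
  pd_sum Finset.univ (F := fun i y => C y i i) (fun i _ => hC i i) k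

theorem dm_mix (hg : Met g) (hT : Sm T) (k : Fin n) : Dm k (fun y => Hm g y * mat T y) x =
    Hm g x * cM g T k x + Hm g x * mat T x * Gam g k x - Gam g k x * (Hm g x * mat T x) := by
  rw [Dm_mul ((sa_H hg).da x) (hT.df x), dH hg, P366XR.cM_eq]
  show _ = Hm g x * (Dm k (mat T) x - ((Gam g k x)ᵀ * mat T x + mat T x * Gam g k x)) + _ - _
  simp only [Matrix.mul_add, Matrix.mul_sub, Matrix.add_mul, Matrix.sub_mul, Matrix.mul_assoc,
    Matrix.neg_mul]
  abel

/-- the derivative of the inner product -/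
theorem pd_pr (hg : Met g) (hA : Sy A) (hB : Sm B) (k : Fin n) : pd k (pr g A B) x =
    trace (Hm g x * (cM g A k x * (Hm g x * mat B x))) +
      trace (Hm g x * (mat A x * (Hm g x * cM g B k x))) := by
  have a : SA fun y => Hm g y * mat A y := (sa_H hg).mul hA.sm
  have b : SA fun y => Hm g y * mat B y := (sa_H hg).mul hB
  have e : pr g A B = fun y => trace (Hm g y * mat A y * (Hm g y * mat B y)) :=
    funext fun y => by rw [pr_eq hg (hA.sy y), Matrix.mul_assoc]
  rw [e, pd_trace ((a.mul b).da x), Dm_mul (a.da x) (b.da x), dm_mix hg hA.sm, dm_mix hg hB]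
  simp only [Matrix.mul_add, Matrix.mul_sub, Matrix.add_mul, Matrix.sub_mul, trace_add, trace_sub,
    trace_mul_comm (Gam g k x), Matrix.mul_assoc]
  ring

/-- the divergence of the Hessian -/
theorem mom_hess (hg : Met g) (hφ : Smooth φ) (j : Fin n) (x : E n) :
    mom g (hess g φ) j x = ∑ i, gr g φ i x * rc g x i j := by
  have hY : ∀ y, P366XR.Df (fun i (_ : E n) => if i = j then (1 : ℝ) else 0) y := fun y i =>
    differentiableAt_const _
  have h1 := P366XR.ricci2 hg (hY x) (Z := gr g φ) fun i => (hg.sm_gr hφ i).c2 x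
  have h2 := dv_sh hg (hg.sm_hess hφ) (hY x)
  have e : P366XR.nab g (fun i (_ : E n) => if i = j then (1 : ℝ) else 0) (gr g φ) =
      hi g (lo (hess g φ) fun i (_ : E n) => if i = j then (1 : ℝ) else 0) := by
    funext i y
    rw [P366XR.nab, P366XR.Dm_gr hg (hφ.c2 y), ← mulVec_mulVec]
    rfl
  rw [e, h2, P366XR.Dm_gr hg (hφ.c2 x), trace_mul_comm (P366XR.Dm g _ x), Matrix.mul_assoc] at h1
  rw [mom_eq hg (hg.sm_hess hφ), show tr g (hess g φ) = lap g φ from
    funext fun y => (hg.lap_eq_tr (hφ.c2 y)).symm]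
  simp only [P366XR.D, P366XR.dd, ev, dotProduct, mulVec, mul_ite, ite_mul, mul_one, one_mul,
    mul_zero, zero_mul, Finset.sum_ite_eq', Finset.mem_univ, if_true, mat] at h1
  simp only [(sy_rc hg).sy x _ j, mul_comm (gr g φ _ x)]
  unfold lap
  linarith

/-- the flux tensor of the variation of the time -/
theorem Wt_kt (hn : 2 ≤ n) (hg : Met g) (hK : Sy K) (φ : E n → ℝ) :
    Wt g K (fun y i j => 2 * φ y * K y i j) (kt g K φ) = fun y i j =>
      momT g (hess g φ) y i j + -φ y * rc g y i j + φ y * mu g K y * g y i j := by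
  funext y
  have n1 : (n : ℝ) - 1 ≠ 0 := sub_ne_zero.2 (by norm_cast; omega)
  show mat (P366K.C.Wt g K _ _) y = mat (momT g (hess g φ)) y + (-φ y) • mat (rc g) y + (φ y * mu g K y) • mat g y
  have hm := mu_eq hg (hK.sy y)
  rw [mat_Wt, pr_eq hg (hK.sy y), pr_eq hg ((sy_momT hg hK).sy y), mat_ml, mat_momT, mat_momT,
    mat_momT, tr_H hg (kt g K φ), tr_H hg fun y i j => 2 * φ y * K y i j, tr_H hg (hess g φ),
    mat_kt, mat_ml, mat_smul]
  simp only [Matrix.mul_add, Matrix.mul_sub, Matrix.sub_mul, Matrix.mul_smul, Matrix.smul_mul,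
    trace_add, trace_sub, trace_smul, HG hg, GH' hg, Matrix.mul_one, trace_one, Fintype.card_fin,
    smul_eq_mul, Matrix.mul_assoc, ← tr_H hg K]
  match_scalars
  all_goals try ring1
  rw [hm]
  field_simp
  ring

/-- **GT** -/
theorem gt : GT := by
  intro n g K φ x hn hg hK hφ
  have n1 : (n : ℝ) - 1 ≠ 0 := sub_ne_zero.2 (by norm_cast; omega)
  have hp := sy_momT hg hK
  have h2 : Smooth fun y => 2 * φ y := ContDiff.mul contDiff_const hφ
  have hm := mu_eq hg (hK.sy x)
  refine ⟨?_, fun j => ?_⟩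
  · have e : rs g (mom g fun y i j => 2 * φ y * K y i j) = fun a y =>
        2 * (hi g (lo (momT g K) (gr g φ)) a y + φ y * rs g (mom g K) a y) := by
      funext a y
      have e1 : momT g (fun y i j => 2 * φ y * K y i j) = fun y i j => 2 * φ y * momT g K y i j := by
        funext y i j
        simp only [momT, tr, Finset.mul_sum, Finset.sum_mul, mul_sub, mul_assoc, mul_left_comm]
      have e2 : ∀ j, mom g (fun y i j => 2 * φ y * K y i j) j y =
          2 * (∑ i, momT g K y j i * gr g φ i y + φ y * mom g K j y) := fun j => by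
        show dvT g (momT g _) j y = 2 * (_ + _ * dvT g (momT g K) j y)
        rw [e1, dvT_smul (h2.diff y) hp.sm]
        simp only [gr, pd_const_mul, hp.sy y j, Finset.mul_sum, Finset.sum_mul, mul_add]
        simp only [mul_assoc, mul_comm, mul_left_comm]
      simp only [rs, e2, hi, lo, ev, mulVec, dotProduct, up, mat, Finset.mul_sum, mul_add,
        Finset.sum_add_distrib, mul_left_comm]
    have dJ : ∀ a, DifferentiableAt ℝ (rs g (mom g K) a) x := fun a =>
      DifferentiableAt.fun_sum fun j _ => ((hg.sm_up a j).diff x).fun_mul ((sm_mom hg hK j).diff x)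
    have dg : P366XR.Df (gr g φ) x := fun i => (hg.sm_gr hφ i).diff x
    have e3 : ev (dvT g (momT g K)) x ⬝ᵥ ev (gr g φ) x = ∑ a, rs g (mom g K) a x * pd a φ x := by
      simp only [ev, dotProduct, gr, rs, Finset.mul_sum, Finset.sum_mul]
      rw [Finset.sum_comm]
      exact Finset.sum_congr rfl fun a _ => Finset.sum_congr rfl fun j _ => by
        rw [hg.up_sy a j]; show mom g K j x * _ = _; ring
    rw [Lmu, e, dv_const_mul, hg.dv_add (P366XR.df_hi hg (P366XR.df_lo hp.sm dg))
      fun a => (hφ.diff x).fun_mul (dJ a), dv_sh hg hp.sm dg, e3, P366XR.Dm_gr hg (hφ.c2 x),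
      pr_eq hg ((sy_rc hg).sy x), pr_eq hg (hK.sy x), pr_eq hg (hp.sy x),
      pr_eq hg (A := ml g K K) fun i j => by
        simp only [ml]
        rw [Finset.sum_comm]
        exact Finset.sum_congr rfl fun k _ => Finset.sum_congr rfl fun l _ => by
          rw [hK.sy x i l, hK.sy x k j, hg.up_sy l k]; ring,
      mat_kt, mat_ml, mat_smul, mat_momT, show (mat g x)⁻¹ = Hm g x from rfl]
    simp only [Matrix.mul_add, Matrix.mul_sub, Matrix.sub_mul, Matrix.mul_smul, Matrix.smul_mul,
      trace_add, trace_sub, trace_smul, HG hg, GH' hg, Matrix.mul_one, trace_one, Fintype.card_fin,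
      smul_eq_mul, Matrix.mul_assoc, ← tr_H hg K, tr4 _ (mat (rc g) x)]
    rw [hm]
    field_simp
    ring
  · have hh : Sy (hess g φ) := ⟨hg.sm_hess hφ, fun y => hg.hess_sy (hφ.c2 y)⟩
    have dn := (hφ.diff x).fun_neg
    have dm := (sm_mu hg hK.sm).diff x
    have e1 : pd j (mu g K) x = (pd j (scal g) x + 2 * tr g K x * pd j (tr g K) x -
        pd j (pr g K K) x) / 2 := by
      have d1 := hg.sm_scal.diff x
      have d2 := (sm_tr hg hK.sm).diff x
      have : mu g K = fun y => (scal g y + tr g K y ^ 2 - pr g K K y) * 2⁻¹ := rfl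
      rw [this, pd_mul_const, pd_sub (d1.fun_add (d2.fun_pow 2)) ((sm_pr hg hK.sm hK.sm).diff x),
        pd_add d1 (d2.fun_pow 2), pd_pow d2]
      norm_num
      ring
    rw [Lmom, Wt_kt hn hg hK, dvT_add (fun a b => ContDiff.add ((sy_momT hg hh).sm a b)
      (ContDiff.mul hφ.neg (sm_rc hg a b))) fun a b =>
        ContDiff.mul (ContDiff.mul hφ (sm_mu hg hK.sm)) (hg.sm a b),
      dvT_add (sy_momT hg hh).sm fun a b => ContDiff.mul hφ.neg (sm_rc hg a b),
      dvT_fg hg ((hφ.diff x).fun_mul dm), dvT_smul dn (sm_rc hg), bianchi hg,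
      show dvT g (momT g (hess g φ)) j x = _ from mom_hess hg hφ j x, pd_mul (hφ.diff x) dm, e1,
      pd_pr hg hK hK.sm, pr_eq hg ((sy_smul h2 hK).sy x), tr_H hg fun y i j => 2 * φ y * K y i j,
      mat_smul, show mat (fun y a b => cT g (momT g K) j a b y) x = _ from cM_momT hg hK.sm j]
    simp only [Matrix.mul_sub, Matrix.mul_smul, Matrix.smul_mul, trace_sub, trace_smul, HG hg,
      Matrix.mul_one, smul_eq_mul, ← tr_H hg K, tr4 _ (cM g K j x), gr, pd_neg, mul_neg,
      Finset.sum_neg_distrib, neg_mul]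
    ring

end Vale.Agent.P366NW
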