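import Vale.Agent.P366DV.Loc
import Vale.Agent.P366EN.Bo

/-!
# P366NW: the isotropic coordinates
-/

set_option linter.all false

open Set Filter Topology Asymptotics
open scoped ContDiff
open Vale.Agent.P366 Vale.Agent.P366M Vale.Agent.P366DV
open Vale.Agent.P366.Stmt (E Field BigO)
open Vale.Agent.P366EN (Bo bo_iff ev_iff ev_ev)

noncomputable section

namespace Vale.Agent.P366NW.Is

variable {n : ℕ}

theorem inv_sm {A : Matrix (Fin n) (Fin n) ℝ} (h : A.PosDef) {c : ℝ} (hc : c ≠ 0) :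
    (c • A)⁻¹ = c⁻¹ • A⁻¹ :=
  Matrix.inv_eq_left_inv (by
    rw [Matrix.smul_mul, Matrix.mul_smul, smul_smul, inv_mul_cancel₀ hc, one_smul,
      Matrix.nonsing_inv_mul _ h.det_pos.ne'.isUnit])

theorem chr_conf {G : Field n} {u : E n → ℝ} {y : E n}
    (hG : ∀ i j, DifferentiableAt ℝ (fun z => G z i j) y) (hu : DifferentiableAt ℝ u y)
    (u0 : u y ≠ 0) (hp : (Stmt.mat G y).PosDef) (hs : ∀ i j, G y i j = G y j i) (k i j : Fin n) :
    Stmt.chr (fun z i j => u z * G z i j) k i j y = Stmt.chr G k i j y +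
      ((if k = j then Stmt.pd i u y else 0) + (if k = i then Stmt.pd j u y else 0) -
        G y i j * ∑ l, Stmt.up G k l y * Stmt.pd l u y) / (2 * u y) := by
  have e1 : ∀ l, Stmt.up (fun z i j => u z * G z i j) k l y = (u y)⁻¹ * Stmt.up G k l y :=
    fun l => congrFun (congrFun (inv_sm hp u0) k) l
  have e2 : ∀ j (c : ℝ), ∑ l, Stmt.up G k l y * (c * G y j l) = if k = j then c else 0 := by
    intro j c
    have := congrFun (congrFun (Matrix.nonsing_inv_mul _ hp.det_pos.ne'.isUnit) k) j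
    rw [Matrix.mul_apply, Matrix.one_apply] at this
    simp only [mul_left_comm _ c, ← Finset.mul_sum, hs j]
    rw [show ∑ l, Stmt.up G k l y * G y l j = _ from this]
    simp
  rw [← e2, ← e2]
  simp only [Stmt.chr, e1, P366Z.pd_mul hu (hG _ _), Finset.mul_sum, Finset.sum_div,
    ← Finset.sum_add_distrib, ← Finset.sum_sub_distrib]
  refine Finset.sum_congr rfl fun l _ => ?_
  field_simp
  ring

variable {M : Type}

section L0

variable [Mf0 n M] {U : Set M} {h : Fld n M} {u : M → ℝ} {x : M}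

theorem hess_conf (hh : MOn h U) (hx : x ∈ U) (hu : DAt u x) (u0 : u x ≠ 0) (f : M → ℝ)
    (i j : Fin n) : hess (fun z i j => u z * h z i j) f x i j = hess h f x i j -
      (pd i u x * pd j f x + pd j u x * pd i f x - h x i j * ip h f u x) / (2 * u x) := by
  have e : ∀ k, chr (fun z i j => u z * h z i j) k i j x = chr h k i j x +
      ((if k = j then pd i u x else 0) + (if k = i then pd j u x else 0) -
        h x i j * ∑ l, up h k l x * pd l u x) / (2 * u x) := fun k => by
    have := chr_conf (fun i j => (hh.sm x hx i j).differentiableAt (by simp)) hu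
      (by rwa [loc_pt]) (by rw [mat_pt]; exact hh.pos x hx) (by rw [rep_pt]; exact hh.sy x hx) k i j
    rw [loc_pt, rep_pt] at this
    simp only [up_pt] at this
    rw [chr, rep_smul]
    exact this
  simp only [hess, e, ip, add_mul, sub_mul, div_mul_eq_mul_div, ← Finset.sum_div, ite_mul, zero_mul,
    Finset.sum_add_distrib, Finset.sum_sub_distrib, Finset.sum_ite_eq', Finset.mem_univ, if_true,
    Finset.mul_sum, Finset.sum_mul, mul_assoc, mul_comm (pd _ f x)]
  ring

theorem ip_conf (hh : MOn h U) (hx : x ∈ U) (u0 : u x ≠ 0) (a b : M → ℝ) :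
    ip (fun z i j => u z * h z i j) a b x = (u x)⁻¹ * ip h a b x := by
  have e : ∀ k l, up (fun z i j => u z * h z i j) k l x = (u x)⁻¹ * up h k l x :=
    fun k l => congrFun (congrFun (inv_sm (hh.pos x hx) u0) k) l
  simp only [ip, e, Finset.mul_sum, mul_assoc]

end L0

/-- the conformal factor, the power of the radius, the cone function -/
def ww (N s : ℝ) : ℝ := ((1 + s) / 2) ^ (4 / N)
def rr (m s : ℝ) : ℝ := m * (1 + s) / (2 * (1 - s))
def ph (N m s : ℝ) : ℝ := rr m s ^ (2 / N) / 2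

variable {N m s κ : ℝ}

theorem ww_pos (h : -1 < s) : 0 < ww N s := Real.rpow_pos_of_pos (by linarith) _

theorem rr_pos (hm : 0 < m) (h : -1 < s) (h' : s < 1) : 0 < rr m s :=
  div_pos (mul_pos hm (by linarith)) (by linarith)

theorem cd_ww (h : -1 < s) : ContDiffAt ℝ ∞ (ww N) s :=
  ((contDiffAt_const.add contDiffAt_id).div_const 2).rpow_const_of_ne
    (show (1 + s) / 2 ≠ 0 by linarith)

theorem cd_ph (hm : 0 < m) (h : -1 < s) (h' : s < 1) : ContDiffAt ℝ ∞ (ph N m) s :=
  (ContDiffAt.rpow_const_of_ne (f := rr m) ((contDiffAt_const.mul (contDiffAt_const.add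
    contDiffAt_id)).div (contDiffAt_const.mul (contDiffAt_const.sub contDiffAt_id))
      (show 2 * (1 - s) ≠ 0 by linarith)) (rr_pos hm h h').ne').div_const 2

theorem hd_ww (h : -1 < s) : HasDerivAt (ww N) (4 / N * ww N s / (1 + s)) s := by
  have h0 : (1 + s) / 2 ≠ 0 := by linarith
  have h1 : 1 + s ≠ 0 := by linarith
  refine ((((hasDerivAt_id s).const_add 1).div_const 2).rpow_const (p := 4 / N)
    (Or.inl h0)).congr_deriv ?_
  rw [id, Real.rpow_sub_one h0, ww]
  field_simp

theorem hd_ph (hm : 0 < m) (h : -1 < s) (h' : s < 1) :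
    HasDerivAt (ph N m) (4 / N * ph N m s / (1 - s ^ 2)) s := by
  have h0 := (rr_pos hm h h').ne'
  have h1 : 1 + s ≠ 0 := by linarith
  have h2 : 1 - s ≠ 0 := by linarith
  have d : HasDerivAt (rr m) (rr m s * (2 / (1 - s ^ 2))) s := by
    refine ((((hasDerivAt_id s).const_add 1).const_mul m).div
      (((hasDerivAt_id s).const_sub 1).const_mul 2) (show 2 * (1 - s) ≠ 0 by linarith)).congr_deriv ?_
    rw [show 1 - s ^ 2 = (1 - s) * (1 + s) by ring, rr, id]
    field_simp
    ring
  refine ((d.rpow_const (p := 2 / N) (Or.inl h0)).div_const 2).congr_deriv ?_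
  rw [Real.rpow_sub_one h0, ph]
  field_simp
  ring

theorem dd_ph (hm : 0 < m) (h : -1 < s) (h' : s < 1) : deriv (deriv (ph N m)) s =
    4 / N * ph N m s * (4 / N + 2 * s) / (1 - s ^ 2) ^ 2 := by
  have h0 : 1 - s ^ 2 ≠ 0 := by nlinarith
  have e : deriv (ph N m) =ᶠ[𝓝 s] fun s => 4 / N * ph N m s / (1 - s ^ 2) :=
    Filter.mem_of_superset (Ioo_mem_nhds h h') fun t ht => (hd_ph hm ht.1 ht.2).deriv
  rw [e.deriv_eq]
  refine (((hd_ph hm h h').const_mul (4 / N)).div ((hasDerivAt_pow 2 s).const_sub 1) h0).deriv.trans ?_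
  generalize 4 / N = c
  field_simp
  ring

theorem key (hN : 0 < N) (hκ : 0 < κ) (hm : m = (N / (2 * κ)) ^ N / 2) (h : -1 < s) (h' : s < 1) :
    ww N s = 8 / N ^ 2 * κ ^ 2 * ph N m s * (1 - s ^ 2) ^ (2 / N) := by
  have a0 : 0 < N / (2 * κ) := by positivity
  have m0 : 0 < m := by rw [hm]; positivity
  have h1 : 0 < (1 + s) / 2 := by linarith
  have h2 : 1 - s ≠ 0 := by linarith
  have e : rr m s * (1 - s ^ 2) = (N / (2 * κ)) ^ N * ((1 + s) / 2) ^ (2 : ℝ) := by
    rw [rr, hm, Real.rpow_two]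
    field_simp
    ring
  rw [ph, mul_assoc, div_mul_eq_mul_div (rr m s ^ _), ← Real.mul_rpow (rr_pos m0 h h').le
    (by nlinarith), e, Real.mul_rpow (by positivity) (by positivity), ← Real.rpow_mul a0.le,
    ← Real.rpow_mul h1.le, mul_div_cancel₀ _ hN.ne', Real.rpow_two, ww,
    show 2 * (2 / N) = 4 / N by ring]
  field_simp
  ring

theorem mono_ph (hN : 0 < N) (hm : 0 < m) : StrictMonoOn (ph N m) (Ioo (-1) 1) := by
  intro a ha b hb hab
  refine div_lt_div_of_pos_right (Real.rpow_lt_rpow (rr_pos hm ha.1 ha.2).le ?_ (by positivity))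
    two_pos
  rw [rr, rr, div_lt_div_iff₀ (by linarith [ha.2]) (by linarith [hb.2])]
  nlinarith

theorem onto_ph (hN : 0 < N) (hm : 0 < m) {t : ℝ} (ht : 0 < t) :
    ∃ s ∈ Ioo (-1 : ℝ) 1, ph N m s = t := by
  have r0 : 0 < (2 * t) ^ (N / 2) := by positivity
  set r := (2 * t) ^ (N / 2) with hr
  refine ⟨(2 * r - m) / (2 * r + m), ⟨by rw [lt_div_iff₀ (by positivity)]; linarith,
    by rw [div_lt_one (by positivity)]; linarith⟩, ?_⟩
  have e : rr m ((2 * r - m) / (2 * r + m)) = r := by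
    rw [rr, div_eq_iff, one_add_div (by positivity), one_sub_div (by positivity)]
    · field_simp
      ring
    · rw [one_sub_div (by positivity)]
      have : 2 * r + m - (2 * r - m) = 2 * m := by ring
      rw [this]
      positivity
  rw [ph, e, hr, ← Real.rpow_mul (by positivity), show N / 2 * (2 / N) = 1 by field_simp,
    Real.rpow_one]
  ring

theorem sq_eq (hN : 0 < N) {a : ℝ} (ha : 0 ≤ a) : a ^ 2 = (a ^ N) ^ (2 / N) := by
  rw [← Real.rpow_mul ha, mul_div_cancel₀ _ hN.ne', Real.rpow_two]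

theorem bo0 {f : E n → ℝ} {c : ℝ} (h : Tendsto f (cocompact (E n)) (𝓝 c)) : Bo 0 f := by
  simpa [Bo] using h.isBigO_one ℝ

variable [Mfe n M] {U : Set M} {h : Fld n M} {V : M → ℝ} {q : ℝ}

theorem lim_conf (S : Stat U h V κ q) (N : ℝ) : Lim (fun z i j => ww N (V z) * h z i j) q := by
  obtain ⟨h0, p0, hb⟩ := S.lim
  obtain ⟨R, hR⟩ := S.out.far
  have v0 := bo_iff.1 S.v0
  have tV : Tendsto (fe V) (cocompact (E n)) (𝓝 1) := by
    simpa using (v0.lim0 S.q0).add_const 1
  have d1 := hd_ww (N := N) (s := 1) (by norm_num)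
  have w1 : ww N 1 = 1 := by simp [ww]
  have tw : Tendsto (fun y => ww N (fe V y)) (cocompact (E n)) (𝓝 (ww N 1)) :=
    d1.continuousAt.tendsto.comp tV
  have bw : Bo q fun y => ww N (fe V y) - 1 := by
    have := (d1.isBigO_sub.comp_tendsto tV).trans v0
    rwa [w1] at this
  refine ⟨h0, p0, fun i j k => ⟨bo_iff.2 ?_, bo_iff.2 ?_⟩⟩
  · refine (((bo0 tw).mul (bo_iff.1 (hb i j k).1) (zero_add q).ge).add (bw.cm (h0 i j))).congr
      (Eventually.of_forall fun y => ?_)
    show ww N (fe V y) * fe h y i j - _ = _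
    ring
  · have th : Tendsto (fun y => fe h y i j) (cocompact (E n)) (𝓝 (h0 i j)) := by
      simpa using ((bo_iff.1 (hb i j k).1).lim0 S.q0).add_const (h0 i j)
    have t2 := (tw.const_mul (4 / N)).div (tV.const_add 1) (by norm_num)
    refine ((((bo0 t2).mul (bo_iff.1 (S.v1 k)) (zero_add (q + 1)).ge).mul (bo0 th)
      (add_zero _).ge).add ((bo0 tw).mul (bo_iff.1 (hb i j k).2) (zero_add _).ge)).congr
      (ev_iff.2 ⟨max R (R0 M), fun y hy => ?_⟩)
    have h1 : R0 M < ‖y‖ := (le_max_right _ _).trans_lt hy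
    have hU : (yp y : M) ∈ U := hR _ (by
      rw [px_yp (by linarith)]; exact (le_max_left _ _).trans_lt hy)
    have dV : DifferentiableAt ℝ (fe V) y :=
      ((cAt_ye h1.le).1 (S.sm _ hU)).differentiableAt (by simp)
    have dh : DifferentiableAt ℝ (fun z => fe h z i j) y := by
      have := (S.met.sm _ hU i j).differentiableAt (by simp)
      rw [show pt (yp y : M) = y from pt_ye h1.le] at this
      exact this.congr_of_eventuallyEq ((rep_ye h1 h).mono fun z hz =>
        (congrFun (congrFun hz i) j).symm)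
    have dw := hd_ww (N := N) (s := fe V y) (lt_trans (by norm_num) (S.out.gt _ hU))
    refine (P366Z.pd_mul (f := fun z => ww N (fe V z))
      (dw.differentiableAt.comp y dV) dh k).trans ?_
    rw [P366Z.pd_comp dw dV]
    rfl

end Is

open Is

/-- **ISO** -/
theorem iso_of (hD : DEV) : ISO := by
  intro n M _ U h V κ q hn S
  have hN : (0 : ℝ) < n - 2 := P366Z.nm2_pos hn
  set N : ℝ := n - 2 with eN
  have k0 := S.κ0
  have m0 : 0 < ms n κ := by unfold ms; positivity
  set m := ms n κ with em'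
  have v1 : ∀ x ∈ U, -1 < V x := fun x hx => lt_trans (by norm_num) (S.out.gt x hx)
  have z0 : (0 : ℝ) ∈ Ioo (-1 : ℝ) 1 := ⟨by norm_num, by norm_num⟩
  have p0 : 0 < ph N m 0 := div_pos (Real.rpow_pos_of_pos (rr_pos m0 z0.1 z0.2) _) two_pos
  obtain ⟨y, hy, hb⟩ := hD n M U (fun z i j => ww N (V z) * h z i j) (fun z => ph N m (V z))
    (ph N m 0) q hn
    (S.met.conf fun x hx => ⟨(cd_ww (v1 x hx)).compM (S.sm x hx), ww_pos (v1 x hx)⟩)
    ⟨S.out.far, fun x hx => mono_ph hN m0 z0 ⟨v1 x hx, S.lt x hx⟩ (S.out.gt x hx), fun t ht R => by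
      obtain ⟨s, hs, rfl⟩ := onto_ph hN m0 (p0.trans ht)
      convert S.out.cpt s (((mono_ph hN m0).lt_iff_lt z0 hs).1 ht) R using 1
      exact Set.ext fun x => and_congr_right fun hx => and_congr_left'
        ((mono_ph hN m0).le_iff_le hs ⟨v1 x hx, S.lt x hx⟩)⟩
    p0.le S.q0 (lim_conf S N) fun x hx => by
      have a := v1 x hx
      have b := S.lt x hx
      have c := S.sm x hx
      have d := c.differentiableAt (by simp)
      have w0 := (ww_pos (N := N) a).ne'
      have h0 : 0 < 1 - V x ^ 2 := by nlinarith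
      have h1 : 1 + V x ≠ 0 := by linarith
      have h2 : 1 - V x ≠ 0 := by linarith
      have e : ip h V V x = κ ^ 2 * ((1 - V x ^ 2) ^ (2 / N) * (1 - V x ^ 2) ^ 2) := by
        rw [S.ip x hx, ← Real.rpow_two (1 - V x ^ 2), ← Real.rpow_add h0]
        congr 2
        rw [← eN, show (n : ℝ) = N + 2 by rw [eN]; ring]
        field_simp
        ring
      have k := key hN k0 em' a b
      have n0 : (n : ℝ) = N + 2 := by rw [eN]; ring
      refine ⟨(cd_ph m0 a b).compM c, funext₂ fun i j => ?_, ?_⟩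
      · rw [hess_conf S.met hx ((hd_ww a).differentiableAt.compM d) w0,
          hess_comp ((cd_ph m0 a b).of_le two_le_oo) (c.of_le two_le_oo), (hd_ph m0 a b).deriv,
          dd_ph m0 a b, ip_comp (hd_ph m0 a b) (hd_ww a) d d, S.hess x hx, e]
        simp only [pd_comp (hd_ph m0 a b) d, pd_comp (hd_ww a) d]
        rw [← eN, n0]
        conv_rhs => rw [k]
        rw [show 1 - V x ^ 2 = (1 - V x) * (1 + V x) by ring]
        field_simp
        ring
      · rw [ip_conf S.met hx w0, ip_comp (hd_ph m0 a b) (hd_ph m0 a b) d d, e,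
          inv_mul_eq_iff_eq_mul₀ w0, k]
        field_simp
        ring
  have hu : ∀ x ∈ U, uu m (y x) = (1 - V x) / (1 + V x) := fun x hx => by
    have h1 := (hy x hx).2.1
    have r0 := rr_pos m0 (v1 x hx) (S.lt x hx)
    rw [sq_eq hN (norm_nonneg _), ph, mul_div_cancel₀ _ two_ne_zero,
      Real.rpow_left_inj (by positivity) r0.le (by positivity)] at h1
    have h2 : 1 + V x ≠ 0 := by linarith [v1 x hx]
    have h3 : 1 - V x ≠ 0 := by linarith [S.lt x hx]
    rw [uu, ← eN, h1, rr]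
    field_simp
  refine ⟨y, fun x hx => (hy x hx).1, fun x hx => ?_, fun x hx i j => ?_, ?_⟩
  · have h2 : 1 + V x ≠ 0 := by linarith [v1 x hx]
    rw [hu x hx]
    field_simp
    ring
  · have h2 : 0 < 1 + V x := by linarith [v1 x hx]
    rw [← (hy x hx).2.2, hu x hx, ← eN, ww, ← mul_assoc, ← Real.mul_rpow (by
      rw [one_add_div h2.ne']; exact div_nonneg (by linarith) h2.le) (by positivity),
      show (1 + (1 - V x) / (1 + V x)) * ((1 + V x) / 2) = 1 by field_simp; ring, Real.one_rpow,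
      one_mul]
  · convert hb using 1
    ext z
    rw [mem_setOf, mem_setOf, sq_eq hN (norm_nonneg _), ph, mul_div_cancel₀ _ two_ne_zero,
      Real.rpow_lt_rpow_iff (rr_pos m0 z0.1 z0.2).le (by positivity) (by positivity), rr, ← eN]
    norm_num

end Vale.Agent.P366NW
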