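import Vale.Agent.P366NW.Iso
import Vale.Agent.P366SB.Main

/-!
# P366NW: the glue of the step S3A
-/

set_option linter.all false

open Set Filter Topology Metric
open scoped ContDiff
open Vale.Agent.P366M Vale.Agent.P366DV
open Vale.Agent.P366.Stmt (E)
open Vale.Agent.P366EN (bo_iff ev_iff)

noncomputable section

namespace Vale.Agent.P366NW

variable {n : ℕ}

theorem conn_ann (hn : 3 ≤ n) {T : Set ℝ} (hT : T.OrdConnected) (h0 : ∀ r ∈ T, 0 < r) :
    IsPreconnected {z : E n | ‖z‖ ∈ T} := by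
  have : {z : E n | ‖z‖ ∈ T} = (fun p : ℝ × E n => p.1 • p.2) '' (T ×ˢ sphere 0 1) := by
    ext y
    refine ⟨fun h => ⟨(‖y‖, ‖y‖⁻¹ • y), ⟨h, ?_⟩, ?_⟩, ?_⟩
    · simp [norm_smul, (h0 _ h).ne']
    · simp [smul_smul, (h0 _ h).ne']
    · rintro ⟨⟨t, z⟩, ⟨h1, h2⟩, rfl⟩
      have h4 : ‖z‖ = 1 := by simpa using h2
      simpa [norm_smul, h4, abs_of_pos (h0 t h1)] using h1
  rw [this]
  refine (hT.isPreconnected.prod (isPreconnected_sphere ?_ 0 1)).image _ (by fun_prop)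
  rw [← Module.finrank_eq_rank, finrank_euclideanSpace_fin]
  exact_mod_cast (by omega : 1 < n)

/-- **S3A** -/
theorem s3a_of (hI : ISO) (hF : FIN) : S3A := by
  intro n M _ D U h V κ q hn hO hU hE S
  obtain ⟨y, I⟩ := hI n M U h V κ q hn S
  have hN : (0 : ℝ) < n - 2 := P366Z.nm2_pos hn
  have m0 : 0 < ms n κ := by have := S.κ0; unfold ms; positivity
  set m := ms n κ
  have np : ∀ z : E n, m / 2 < ‖z‖ ^ ((n : ℝ) - 2) → 0 < ‖z‖ := fun z hz =>
    (norm_nonneg z).lt_of_ne' fun h0 => by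
      rw [h0, Real.zero_rpow hN.ne'] at hz
      linarith
  obtain ⟨ψ, h1, h2⟩ := P366SB.exists_inv S.met.op I.sm (fun x hx => P366SB.inj_fd (I.sm x hx)
    fun v hv => by_contra fun v0 => by
      have := (S.met.pos x hx).dotProduct_mulVec_pos v0
      rw [← P366Z.quad_eq] at this
      simp only [mat, I.h x hx, mul_assoc, ← Finset.mul_sum] at this hv
      rw [hv, mul_zero] at this
      exact this.false) I.bij
  have hc : ∀ t, IsPreconnected {x ∈ U | V x < t} := fun t => by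
    have a := conn_ann hn (T := {r | 0 < r ∧ m / 2 < r ^ ((n : ℝ) - 2) ∧
      1 - 2 * m / (2 * r ^ ((n : ℝ) - 2) + m) < t}) ⟨fun a ha b hb r hr => ⟨ha.1.trans_le hr.1,
        ha.2.1.trans_le (Real.rpow_le_rpow ha.1.le hr.1 hN.le), lt_of_le_of_lt (by
          have := ha.1.trans_le hr.1
          gcongr
          exact hr.2) hb.2.2⟩⟩ fun r hr => hr.1
    have e : ∀ x ∈ U, V x = 1 - 2 * m / (2 * ‖y x‖ ^ ((n : ℝ) - 2) + m) := fun x hx => by
      have : 0 < ‖y x‖ ^ ((n : ℝ) - 2) := Real.rpow_pos_of_pos (np _ (I.bij.mapsTo hx)) _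
      rw [I.V x hx, uu]
      field_simp
      ring
    convert a.image ψ fun z hz => ?_ using 1
    · ext x
      refine ⟨fun hx => ⟨y x, ⟨np _ (I.bij.mapsTo hx.1), I.bij.mapsTo hx.1, e x hx.1 ▸ hx.2⟩,
        h1 x hx.1⟩, ?_⟩
      rintro ⟨z, hz, rfl⟩
      obtain ⟨x, hx, rfl⟩ := I.bij.surjOn hz.2.1
      rw [h1 x hx]
      exact ⟨hx, e x hx ▸ hz.2.2⟩
    · obtain ⟨x, hx, rfl⟩ := I.bij.surjOn hz.2.1
      obtain ⟨σ, s1, -, s2⟩ := h2 x hx
      exact (((cont_symm (ch_mem x)).continuousAt.comp s1.continuousAt).congr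
        s2.symm).continuousWithinAt
  refine ⟨hF n M D U V 0 hO S.met.op hU hE S.out
    (fun x hx => (S.sm x hx).continuousAt.continuousWithinAt) ?_ ?_ hc, y, I⟩
  · obtain ⟨R, hR⟩ := ev_iff.1 (((bo_iff.1 S.v0).lim0 S.q0).eventually
      (lt_mem_nhds (show -(1 / 2 : ℝ) < 0 by norm_num)))
    refine ⟨1 / 2, by norm_num, max R (R0 M), fun x hx => ?_⟩
    have := hR _ ((le_max_left _ _).trans_lt hx)
    rw [fe, yp_px (by linarith [le_max_right R (R0 M)])] at this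
    linarith
  · convert hc 1 using 1
    exact (sep_eq_self_iff_mem_true.2 S.lt).symm

end Vale.Agent.P366NW
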