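import Vale.Agent.P366RB.Defs
import Vale.Agent.P366DV.Loc
import Vale.Agent.P366M.Max

/-!
# P366NW: the formula of Bochner for static metrics, and calculus on an open set
-/

open Filter Topology Set
open scoped ContDiff
open Vale.Agent.P366

noncomputable section

namespace Vale.Agent.P366NW

variable {n : ℕ}

section chart

open Stmt P366Z P366Z.Boch

variable {g : Field n} {v : E n → ℝ} {x : E n}

theorem bil_lin (g : Field n) (x : E n) (A B S : Fin n → Fin n → ℝ) (s t : ℝ) :
    bil g x S (fun i j => s * A i j + t * B i j) = s * bil g x S A + t * bil g x S B := by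
  simp only [bil, Finset.mul_sum, ← Finset.sum_add_distrib]
  exact Finset.sum_congr rfl fun i _ => Finset.sum_congr rfl fun j _ =>
    Finset.sum_congr rfl fun k _ => Finset.sum_congr rfl fun l _ => by ring

theorem bil_sy (hg : Met g) (x : E n) (T S : Fin n → Fin n → ℝ) : bil g x T S = bil g x S T := by
  have : ∀ T S : Fin n → Fin n → ℝ, bil g x T S = ∑ p : Fin n × Fin n, ∑ q : Fin n × Fin n,
      up g p.1 q.1 x * up g p.2 q.2 x * T p.1 p.2 * S q.1 q.2 := fun T S => by
    simp only [Fintype.sum_prod_type, bil]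
  rw [this, this, Finset.sum_comm]
  exact Finset.sum_congr rfl fun p _ => Finset.sum_congr rfl fun q _ => by
    rw [hg.up_sy p.1, hg.up_sy p.2]; ring

theorem bil_val (hg : Met g) (x : E n) (T : Fin n → Fin n → ℝ) (a b : Fin n) :
    bil g x T (fun k l => g x k a * g x l b) = T a b := by
  have e : ∀ i j, ∑ k, up g i k x * ∑ l, g x k a * g x l b * up g j l x =
      (if i = a then 1 else 0) * if j = b then 1 else 0 := fun i j => by
    rw [← hg.up_mul i a x, ← hg.up_mul j b x, Finset.sum_mul_sum]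
    simp only [Finset.mul_sum]
    exact Finset.sum_congr rfl fun k _ => Finset.sum_congr rfl fun l _ => by ring
  rw [bil_eq]
  simp [e]

theorem bil_nn (hg : Met g) (x : E n) (T : Fin n → Fin n → ℝ) : 0 ≤ bil g x T T := by
  have := ((hg.inv_pos x).posSemidef.kronecker
    (hg.inv_pos x).posSemidef).dotProduct_mulVec_nonneg fun p => T p.1 p.2
  refine this.trans_eq ?_
  simp only [dotProduct, Matrix.mulVec, star_trivial, Finset.mul_sum, Matrix.kroneckerMap,
    Matrix.of_apply, up, Fintype.sum_prod_type, bil]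
  exact Finset.sum_congr rfl fun i _ => Finset.sum_congr rfl fun j _ =>
    Finset.sum_congr rfl fun k _ => Finset.sum_congr rfl fun l _ => by ring

/-- the formula of Bochner with the trace free tensor -/
theorem key (hn : 0 < n) (hg : Met g) (hv : Smooth v) (γ : ℝ) (hl : lap g v =ᶠ[𝓝 x] fun _ => 0)
    (hr : ∀ i j, v x * P366Y.C.rc g x i j = hess g v x i j) : ∃ t, 0 ≤ t ∧ (t = 0 → ∀ i j,
      hess g v x i j = -γ * (pd i v x * pd j v x - ip g v v x / n * g x i j)) ∧
    v x * lap g (ip g v v) x = 2 * v x * (t - γ * ip g v (ip g v v) x -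
      γ ^ 2 * ip g v v x ^ 2 * (1 - 1 / n)) + ip g v (ip g v v) x := by
  have n0 : (n : ℝ) ≠ 0 := by positivity
  set T : Fin n → Fin n → ℝ := fun i j => 1 * hess g v x i j + γ * (1 * (pd i v x * pd j v x) +
    -(ip g v v x / n) * g x i j) with hT
  refine ⟨bil g x T T, bil_nn hg x T, fun h i j => ?_, ?_⟩
  · have := bil_cs hg x T fun k l => g x k i * g x l j
    rw [h, zero_mul, bil_val hg] at this
    have := pow_eq_zero_iff two_ne_zero |>.1 (le_antisymm this (sq_nonneg _))
    simp only [hT] at this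
    linarith
  have e1 := formula hg hv x
  have e2 := part2 hg hv v x
  have e3 : v x * ∑ i, ∑ l, ric g i l x * gr g v i x * gr g v l x =
      ∑ i, ∑ j, hess g v x i j * gr g v i x * gr g v j x := by
    simp only [Finset.mul_sum, ← hr]
    exact Finset.sum_congr rfl fun i _ => Finset.sum_congr rfl fun j _ => by
      change _ = v x * ric g i j x * _ * _; ring
  have e4 : bil g x (hess g v x) (g x) = 0 := by
    rw [bil_g hg]; exact (hg.lap_eq_tr (hv.c2 x)).symm.trans hl.self_of_nhds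
  have e5 : bil g x (g x) (g x) = n := by
    rw [bil_g hg]
    calc _ = ∑ _i : Fin n, (1 : ℝ) := Finset.sum_congr rfl fun i _ => by
          have := hg.up_mul i i x
          rw [if_pos rfl] at this
          rw [← this]
          exact Finset.sum_congr rfl fun j _ => by rw [hg.sy x i j]
      _ = n := by simp
  have e6 : bil g x (fun i j => pd i v x * pd j v x) (g x) = ip g v v x := by
    rw [bil_g hg, ip]
    exact Finset.sum_congr rfl fun i _ => Finset.sum_congr rfl fun j _ => by ring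
  have e7 : bil g x (fun i j => pd i v x * pd j v x) (fun i j => pd i v x * pd j v x) =
      ip g v v x ^ 2 := by
    rw [bil_p, ip_eq_gr, sq, Finset.sum_mul_sum]
    exact Finset.sum_congr rfl fun k _ => Finset.sum_congr rfl fun l _ => by ring
  have e8 := bil_p g x (hess g v x) v
  have e9 : bil g x (hess g v x) (hess g v x) = normSq g (hess g v) x := rfl
  rw [ip_congr EventuallyEq.rfl hl, ip_const_right] at e1
  rw [hT, bil_lin, bil_lin]
  simp only [bil_sy hg x fun i j => 1 * hess g v x i j + γ * _]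
  simp only [bil_lin]
  rw [bil_sy hg x (fun i j => pd i v x * pd j v x) (hess g v x), bil_sy hg x (g x) (hess g v x),
    bil_sy hg x (g x) fun i j => pd i v x * pd j v x, e4, e5, e6, e7, e8, e9]
  have e10 : lap g (ip g v v) x = _ := (div_eq_iff two_ne_zero).1 e1
  rw [e10, e2]
  field_simp
  linear_combination (n : ℝ) * e3

theorem rc_of_ev {g' : Field n} (e : g =ᶠ[𝓝 x] g') : P366Y.C.rc g x = P366Y.C.rc g' x := by
  have h1 : ∀ k i j c, pd c (chr g k i j) x = pd c (chr g' k i j) x := fun k i j c =>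
    pd_congr (e.eventuallyEq_nhds.mono fun y hy => chr_of_ev hy k i j) c
  funext i l
  simp only [P366Y.C.rc, h1, chr_of_ev e]

end chart

open P366M P366DV

variable {M : Type} [Mf n M] {U : Set M} {h : Fld n M} {x : M} {u v V : M → ℝ}

theorem ip_ev {g : Fld n M} (e : h =ᶠ[𝓝 x] g) (e' : V =ᶠ[𝓝 x] v) : ip h V V =ᶠ[𝓝 x] ip g v v := by
  filter_upwards [e, e'.eventuallyEq_nhds] with z k1 k2
  rw [ip_of_eq k1, ip_congr k2 k2]

theorem m_cip (hh : MOn h U) (hx : x ∈ U) (hV : ∀ z ∈ U, CAt ∞ V z) : CAt ∞ (ip h V V) x := by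
  obtain ⟨g, hg, e⟩ := hh.lm hx
  obtain ⟨v, hv, e'⟩ := ext_fun (u := V) (mem_of_superset (hh.op.mem_nhds hx) hV)
  exact (CD.contDiffAt (hg.sm_ip hv hv)).congr_of_eventuallyEq (ip_ev e e')

theorem m_nn (hh : MOn h U) (hx : x ∈ U) (u : M → ℝ) : 0 ≤ ip h u u x := by
  obtain ⟨g, hg, e⟩ := hh.lm hx
  rw [ip_of_eq e.self_of_nhds]; exact hg.ip_nonneg u x

theorem m_mul (hh : MOn h U) (hx : x ∈ U) (hu : CAt 2 u x) (hv : CAt 2 v x) :
    lap h (fun y => u y * v y) x = v x * lap h u x + u x * lap h v x + 2 * ip h v u x := by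
  obtain ⟨g, hg, e⟩ := hh.lm hx
  simp only [lap_of_ev e, ip_of_eq e.self_of_nhds]
  rw [hg.ip_sy]; exact hg.lap_mul hu hv

theorem m_sub (hh : MOn h U) (hx : x ∈ U) (hu : CAt 2 u x) (hv : CAt 2 v x) :
    lap h (fun y => u y - v y) x = lap h u x - lap h v x := by
  obtain ⟨g, hg, e⟩ := hh.lm hx
  simp only [lap_of_ev e]; exact hg.lap_sub hu hv

theorem m_comp (hh : MOn h U) (hx : x ∈ U) {φ : ℝ → ℝ} (hv : CAt 2 v x)
    (hφ : ContDiffAt ℝ 2 φ (v x)) : lap h (fun y => φ (v y)) x =
      deriv φ (v x) * lap h v x + deriv (deriv φ) (v x) * ip h v v x := by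
  obtain ⟨g, hg, e⟩ := hh.lm hx
  simp only [lap_of_ev e, ip_of_eq e.self_of_nhds]; exact hg.lap_comp hv hφ

theorem m_max (hh : MOn h U) (hx : x ∈ U) (hu : CAt 2 u x) (hm : IsLocalMax u x) :
    ip h v u x = 0 ∧ lap h u x ≤ 0 := by
  obtain ⟨g, hg, e⟩ := hh.lm hx
  have := (ptm n M g (fun _ => 1) u x hg cd_const hu hm).1
  exact ⟨by simp [ip, this], by rw [lap_of_ev e]; exact hg.lap_nonpos hu hm⟩

/-- the strong minimum principle on the open set -/
theorem m_smp (hh : MOn h U) (hc : IsPreconnected U) (hv : ∀ z ∈ U, CAt ∞ v z)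
    (hu : ∀ z ∈ U, CAt 2 u z ∧ 0 ≤ u z ∧ lap h u z + 2 * ip h v u z ≤ 0) (hx : x ∈ U)
    (h0 : u x = 0) : ∀ z ∈ U, u z = 0 := by
  have key : ∀ y ∈ U, u y = 0 → ∀ᶠ z in 𝓝 y, u z = 0 := fun y hy k => by
    obtain ⟨g, hg, e⟩ := hh.lm hy
    obtain ⟨w, hw, e'⟩ := ext_fun (u := v) (mem_of_superset (hh.op.mem_nhds hy) hv)
    refine hg.smp (U := fun z => Real.exp (w z)) (CD.exp hw) (fun _ => Real.exp_pos _) le_rfl ?_ k
    filter_upwards [hh.op.mem_nhds hy, e.eventuallyEq_nhds, e'.eventuallyEq_nhds] with z hz k1 k2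
    obtain ⟨a, b, c⟩ := hu z hz
    refine ⟨a, b, ?_⟩
    rw [lap_of_ev k1, ip_of_eq k1.self_of_nhds, ip_congr k2 EventuallyEq.rfl] at c
    rw [hg.wl_eq (hw.diff z).exp a, ip_comp_left (Real.hasDerivAt_exp _) (hw.diff z)]
    linarith [mul_nonpos_of_nonneg_of_nonpos (sq_nonneg (Real.exp (w z))) c]
  have k : U ⊆ {y | ∀ᶠ z in 𝓝 y, u z = 0} := hc.subset_of_closure_inter_subset
    (isOpen_iff_mem_nhds.2 fun y hy => Eventually.eventually_nhds hy) ⟨x, hx, key x hx h0⟩
    fun y ⟨h1, h2⟩ => key y h2 (by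
      by_contra h3
      obtain ⟨z, h4, h5⟩ := mem_closure_iff_nhds.1 h1 _
        ((hu y h2).1.continuousAt.eventually_ne h3)
      exact h4 (Eventually.self_of_nhds (p := fun z => u z = 0) h5))
  exact fun z hz => Eventually.self_of_nhds (p := fun z => u z = 0) (k hz)

/-- the formula of Bochner on the open set -/
theorem m_key (hn : 0 < n) (hh : MOn h U) (hx : x ∈ U) (γ : ℝ)
    (hV : ∀ x ∈ U, CAt ∞ V x ∧ lap h V x = 0 ∧ ∀ i j, V x * ric h x i j = hess h V x i j) :
    ∃ t, 0 ≤ t ∧ (t = 0 → ∀ i j,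
      hess h V x i j = -γ * (pd i V x * pd j V x - ip h V V x / n * h x i j)) ∧
    V x * lap h (ip h V V) x = 2 * V x * (t - γ * ip h V (ip h V V) x -
      γ ^ 2 * ip h V V x ^ 2 * (1 - 1 / n)) + ip h V (ip h V V) x := by
  obtain ⟨g, hg, e⟩ := hh.lm hx
  obtain ⟨v, hv, e'⟩ := ext_fun (u := V) (mem_of_superset (hh.op.mem_nhds hx) fun z k => (hV z k).1)
  have he := ch_mem x
  have e1 := ip_ev e e'
  have := key (x := pt x) hn (hg.rep he) (hv.lc he) γ (by
    rw [← loc_lap hg he hv.two]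
    refine loc_congr (v := fun _ => (0 : ℝ)) ?_
    filter_upwards [hh.op.mem_nhds hx, e.eventuallyEq_nhds, e'.eventuallyEq_nhds] with z hz k1 k2
    rw [← lap_of_ev k1, ← lap_congr k2, (hV z hz).2.1]) fun i j => by
    rw [hess_pt, loc_pt, ← e'.self_of_nhds, ← hess_congr e', ← hess_of_ev e, ← (hV x hx).2.2,
      ← rc_of_ev (rep_congr_pt e), ric]
  rw [← loc_ip he g hv.diff hv.diff, ip_pt, hess_pt, loc_pt, loc_pt, rep_pt] at this
  rw [lap_of_ev e, lap_congr e1, ip_of_eq e.self_of_nhds V (ip h V V), ip_congr e' e1,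
    e1.self_of_nhds, hess_of_ev e, hess_congr e', e.self_of_nhds, e'.self_of_nhds]
  simp only [pd_congr e']
  exact this

end Vale.Agent.P366NW
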