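import Vale.Agent.P366NW.S3a
import Vale.Agent.P366DV.Dev2
import Vale.Agent.P366FN.Fin

/-!
# P366NW: the step S3A
-/

namespace Vale.Agent.P366NW

/-- **S3A** -/
theorem s3a : P366DV.S3A := s3a_of (iso_of P366DV.dev) P366FN.fin

end Vale.Agent.P366NW
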